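import Vale.Agent.P022G.Mod.Lev
import Vale.Agent.P022D.As.EndA

/-!
# P022S: the denominator does not vanish on a given prime of level zero
-/

set_option linter.all false

open IsLocalRing Filter

noncomputable section

namespace Vale.Agent.P022S.Mod

open Vale.Agent.P022 Vale.Agent.P022G.Mod
open Vale.Agent.P022E.As (Tg cc tt dd yy Dq)
open Vale.Agent.P022D.PA (Base Cv)

section gen
variable {P T : Type} [CommRing P] [CommRing T]

/-- one good ideal determines `Kr` up to a power of the maximal ideal -/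
theorem chev0 [Base P] {𝔊 : Set (Ideal T)} {Φ : ∀ a : Ideal T, P →+* T ⧸ a} {m : Ideal T}
    (h : Fm 𝔊 Φ m) (k : ℕ) :
    ∃ a ∈ 𝔊, RingHom.ker (Φ a) ≤ Kr 𝔊 Φ ⊔ maximalIdeal P ^ k := by
  have z : ∀ a ∈ 𝔊, ∀ b ∈ 𝔊, a ≤ b → ∀ f, Φ a f = 0 → Φ b f = 0 := fun a ha b hb e f k =>
    (h.fac a ha b hb e f 0 (k.trans (map_zero _).symm)).trans (map_zero _)
  obtain ⟨a0, h0, -⟩ := h.res
  haveI : Nonempty 𝔊 := ⟨⟨_, h0⟩⟩
  by_contra hn
  have ne : ∀ a : 𝔊, ∃ f, Φ a.1 f = 0 ∧ f ∉ Kr 𝔊 Φ ⊔ maximalIdeal P ^ k := fun a => by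
    by_contra c
    refine hn ⟨a.1, a.2, fun f hf => ?_⟩
    by_contra c'
    exact c ⟨f, hf, c'⟩
  obtain ⟨y, hy⟩ := cpt (fun a : 𝔊 => {f | Φ a.1 f = 0 ∧ f ∉ Kr 𝔊 Φ ⊔ maximalIdeal P ^ k})
    (fun a b => ⟨⟨_, h.inf _ a.2 _ b.2⟩,
      fun f hf => ⟨z _ (h.inf _ a.2 _ b.2) _ a.2 inf_le_left f hf.1, hf.2⟩,
      fun f hf => ⟨z _ (h.inf _ a.2 _ b.2) _ b.2 inf_le_right f hf.1, hf.2⟩⟩) ne fun a => by
      obtain ⟨j, hj⟩ := h.ker _ a.2
      refine ⟨j + k, fun x hx y hxy => ⟨?_, fun c' => hx.2 ?_⟩⟩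
      · have := hj _ (Ideal.pow_le_pow_right (Nat.le_add_right _ _) hxy)
        rwa [map_sub, hx.1, zero_sub, neg_eq_zero] at this
      · rw [← sub_add_cancel x y]
        exact add_mem (Ideal.mem_sup_right (Ideal.pow_le_pow_right (Nat.le_add_left _ _) hxy)) c'
  exact (hy ⟨_, h0⟩).2 (Ideal.mem_sup_left (mem_Kr.2 fun a ha => (hy ⟨a, ha⟩).1))

theorem lam_Kr [IsLocalRing P] {𝔊 : Set (Ideal T)} {Φ : ∀ a : Ideal T, P →+* T ⧸ a}
    {lam : T →+* P} (l : Lm 𝔊 Φ lam) {t : T} (h : ∀ a ∈ 𝔊, t ∈ a) : lam t ∈ Kr 𝔊 Φ :=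
  mem_Kr.2 fun a ha => (l a ha t).trans (Ideal.Quotient.eq_zero_iff_mem.2 (h a ha))

/-- the lifts at two levels agree modulo `Kr` -/
theorem jr_Kr {P' : Type} [CommRing P'] [IsLocalRing P] [IsLocalRing P'] {𝔊 𝔊' : Set (Ideal T)}
    {Φ : ∀ a : Ideal T, P →+* T ⧸ a} {Φ' : ∀ a : Ideal T, P' →+* T ⧸ a} {lam : T →+* P}
    {lam' : T →+* P'} (l : Lm 𝔊 Φ lam) (l' : Lm 𝔊' Φ' lam') {jr : P' →+* P}
    (e : ∀ a ∈ 𝔊, a ∈ 𝔊' ∧ Φ' a = (Φ a).comp jr) (t : T) : jr (lam' t) - lam t ∈ Kr 𝔊 Φ :=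
  mem_Kr.2 fun a ha => by
    have := l' a (e a ha).1 t
    rw [(e a ha).2] at this
    rw [map_sub, l a ha, sub_eq_zero]
    exact this

end gen

variable {O P : Type} [CommRing O] [CommRing P]

/-- the elements which do not change the traces modulo `J` -/
def Un (lam : Tg O →+* P) (J : Ideal P) : Subgroup GQ where
  carrier := {u | ∀ g, lam (tt (g * u)) - lam (tt g) ∈ J}
  one_mem' := fun g => by rw [mul_one, sub_self]; exact J.zero_mem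
  mul_mem' := fun {u v} hu hv g => by
    have := add_mem (hv (g * u)) (hu g)
    rwa [sub_add_sub_cancel, mul_assoc] at this
  inv_mem' := fun {u} hu g => by
    have := neg_mem (hu (g * u⁻¹))
    rwa [neg_sub, inv_mul_cancel_right] at this

theorem mem_Un {lam : Tg O →+* P} {J : Ideal P} {u : GQ} :
    u ∈ Un lam J ↔ ∀ g, lam (tt (g * u)) - lam (tt g) ∈ J := Iff.rfl

theorem Un_mono (lam : Tg O →+* P) {J J' : Ideal P} (h : J ≤ J') : Un lam J ≤ Un lam J' :=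
  fun _ hu g => h (hu g)

variable {𝔊 : Set (Ideal (Tg O))} {Φ : ∀ a : Ideal (Tg O), P →+* Tg O ⧸ a} {m : Ideal (Tg O)}
  {lam : Tg O →+* P}

theorem Un_normal [IsLocalRing P] (l : Lm 𝔊 Φ lam)
    (tc : ∀ a ∈ 𝔊, ∀ g h, (tt (g * h) - tt (h * g) : Tg O) ∈ a) {J : Ideal P} (hJ : Kr 𝔊 Φ ≤ J) :
    (Un lam J).Normal := ⟨fun u hu h g => by
  have c : ∀ g h, lam (tt (g * h)) - lam (tt (h * g)) ∈ J := fun g h => by
    rw [← map_sub]; exact hJ (lam_Kr l fun a ha => tc a ha g h)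
  have := add_mem (add_mem (c (g * h * u) h⁻¹) (hu (h⁻¹ * g * h))) (c h⁻¹ (g * h))
  convert this using 1
  simp only [mul_assoc, mul_inv_cancel, mul_one]
  ring⟩

/-- **uniformity** -/
theorem Un_open [Base P] (h : Fm 𝔊 Φ m) (l : Lm 𝔊 Φ lam)
    (opn : ∀ a ∈ 𝔊, ∃ U : Subgroup GQ, IsOpen (U : Set GQ) ∧
      ∀ u ∈ U, ∀ g, (tt (g * u) - tt g : Tg O) ∈ a) {J : Ideal P} (hJ : Kr 𝔊 Φ ≤ J) (n : ℕ) :
    IsOpen (Un lam (J ⊔ maximalIdeal P ^ n) : Set GQ) := by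
  obtain ⟨a, ha, e⟩ := chev0 h n
  obtain ⟨U, h1, h2⟩ := opn a ha
  refine Subgroup.isOpen_mono (H₁ := U) (fun u hu g => ?_) h1
  rw [← map_sub]
  exact sup_le_sup_right hJ _
    (e ((l a ha _).trans (Ideal.Quotient.eq_zero_iff_mem.2 (h2 u hu g))))

/-- the trace of an odd power -/
theorem tr_odd (h2 : (2 : Tg O) ∈ m) (ht : ∀ g, tt g ∈ m) (hd : ∀ g, dd g - 1 ∈ m) (s : GQ)
    (k : ℕ) : ∃ w : Tg O, w - 1 ∈ m ∧ ∀ a : Ideal (Tg O),
      (∀ g h, tt g * tt h - (tt (g * h) + dd h * tt (g * h⁻¹)) ∈ a) →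
      tt (s ^ (2 * k + 1)) - w * tt s ∈ a := by
  induction k with
  | zero => exact ⟨1, by simp, fun a _ => by simp⟩
  | succ k ih =>
    obtain ⟨w, h1, h3⟩ := ih
    refine ⟨tt (s ^ (2 * k + 1 + 1)) - dd s * w, ?_, fun a ha => ?_⟩
    · have := sub_mem (sub_mem (sub_mem (ht (s ^ (2 * k + 1 + 1)))
        (m.mul_mem_right w (hd s))) h1) h2
      convert this using 1
      ring
    · have k1 := ha (s ^ (2 * k + 1 + 1)) s
      rw [pow_succ s (2 * k + 1), mul_inv_cancel_right, ← pow_succ, ← pow_succ] at k1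
      have := sub_mem (neg_mem k1) (a.mul_mem_left (dd s) (h3 a ha))
      convert this using 1
      rw [show 2 * (k + 1) + 1 = 2 * k + 1 + 1 + 1 by ring]
      ring

/-- **the denominator** -/
theorem dp [Base P] (h : Fm 𝔊 Φ m) (l : Lm 𝔊 Φ lam)
    (tm : ∀ a ∈ 𝔊, ∀ g h, (tt g * tt h - (tt (g * h) + dd h * tt (g * h⁻¹)) : Tg O) ∈ a)
    (ht : ∀ g, tt g ∈ m) (hd : ∀ g, dd g - 1 ∈ m) {P' : Type} [CommRing P'] [Base P']
    {jr : P' →+* P} (hj : ∀ z ∈ maximalIdeal P', jr z ∈ maximalIdeal P) {lam' : ℕ → Tg O →+* P'}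
    {E : Ideal P} (hE : E.IsPrime) (e1 : Kr 𝔊 Φ ≤ E) (e2 : (2 : P) ∈ E)
    (e3 : ∀ n t, jr (lam' n t) - lam t ∈ E) {r : ℕ} {s : Fin r → GQ}
    (hs : ∀ i, lam (tt (s i)) ∉ E) {q : ℕ → Fin r → ℕ} (hq : ∀ n i, Odd (q n i))
    {φ : ℕ → Fin r → GQ}
    (hφ : ∀ n i, ∃ k, Odd k ∧ (φ n i)⁻¹ * s i ^ k ∈ Un lam (E ⊔ maximalIdeal P ^ n))
    {U : Filter ℕ} [U.NeBot] (hU : U ≤ atTop) {c : ℕ} {d : P'} (hc : Cv U (DD lam' q φ c) d) :
    jr d ∉ E := fun k0 => by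
  have t0 : (∏ i, lam (tt (s i)) ^ 2) ^ c ∉ E := fun k => by
    by_cases c0 : c = 0
    · rw [c0, pow_zero] at k
      exact hE.ne_top ((Ideal.eq_top_iff_one _).2 k)
    obtain ⟨i, -, hi⟩ := (Ideal.IsPrime.prod_mem_iff (hp := hE)).1 (hE.mem_of_pow_mem _ k)
    exact hs i (hE.mem_of_pow_mem _ hi)
  refine t0 (P022D.PA.mem_of_sup E _ fun j => ?_)
  obtain ⟨n, n1, n2⟩ := ((P022D.As.EA.cv_map jr hj hc j).and (hU (eventually_ge_atTop j))).exists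
  have h2 : (2 : Tg O) ∈ m := (l.max h _).1 (by
    rw [map_ofNat]; exact le_maximalIdeal hE.ne_top e2)
  let π := Ideal.Quotient.mk (E ⊔ maximalIdeal P ^ j)
  have z : ∀ x ∈ E, π x = 0 := fun x hx =>
    Ideal.Quotient.eq_zero_iff_mem.2 (Ideal.mem_sup_left hx)
  have two : (2 : P ⧸ (E ⊔ maximalIdeal P ^ j)) = 0 := (map_ofNat π 2).symm.trans (z _ e2)
  have k1 : ∀ i, ∃ w : P, IsUnit w ∧ π (lam (tt (φ n i))) = π (w * lam (tt (s i))) := fun i => by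
    obtain ⟨_, ⟨k, rfl⟩, hk⟩ := hφ n i
    obtain ⟨w, w1, w2⟩ := tr_odd h2 ht hd (s i) k
    refine ⟨lam w, ?_, ?_⟩
    · have := (l.max h _).2 w1
      rw [map_sub, map_one] at this
      by_contra c'
      exact (maximalIdeal.isMaximal P).ne_top ((Ideal.eq_top_iff_one _).2 (by
        simpa using sub_mem (show lam w ∈ maximalIdeal P from c') this))
    · have a1 := hk (φ n i)
      rw [mul_inv_cancel_left] at a1
      have a2 := z _ (e1 (lam_Kr l fun a ha => w2 a (tm a ha)))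
      rw [map_sub, map_sub, sub_eq_zero, map_mul] at a2
      rw [← a2]
      have le : E ⊔ maximalIdeal P ^ n ≤ E ⊔ maximalIdeal P ^ j :=
        sup_le_sup_left (Ideal.pow_le_pow_right n2) _
      exact (Ideal.Quotient.eq.2 (le a1)).symm
  choose w w1 w2 using k1
  have k2 : π (lam (Dq (q n) (φ n) ^ c)) =
      π ((∏ i, w i ^ 2) ^ c * (∏ i, lam (tt (s i)) ^ 2) ^ c) := by
    rw [← mul_pow, ← Finset.prod_mul_distrib, Vale.Agent.P022D.As.Dq]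
    simp only [map_pow, map_prod]
    refine congrArg (· ^ c) (Finset.prod_congr rfl fun i _ => ?_)
    obtain ⟨k, hk⟩ := hq n i
    have q1 : ((q n i : ℕ) : P ⧸ (E ⊔ maximalIdeal P ^ j)) = 1 := by
      rw [hk]; push_cast; rw [two]; ring
    simp only [map_sub, map_mul, map_pow, map_add, map_natCast, map_one]
    rw [q1, one_add_one_eq_two, two, w2, map_mul]
    ring
  have k3 : π (lam (Dq (q n) (φ n) ^ c)) = 0 := by
    have b1 := z _ (e3 n (Dq (q n) (φ n) ^ c))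
    have b2 : π _ = 0 := Ideal.Quotient.eq_zero_iff_mem.2 (Ideal.mem_sup_right n1)
    rw [map_sub, sub_eq_zero] at b1 b2
    rw [← b1]
    exact b2.trans (z _ k0)
  rw [k2, Ideal.Quotient.eq_zero_iff_mem] at k3
  exact (Ideal.unit_mul_mem_iff_mem _
    ((IsUnit.prod_univ_iff.2 fun i => (w1 i).pow 2).pow c)).1 k3

end Vale.Agent.P022S.Mod
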