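import Vale.Agent.P022S.Kd
import Vale.Agent.P022G.Mod.Ph
import Vale.Agent.P022E.As.Bas

/-!
# P022S: the good ideals of the ring of symbols, without a unit trace
-/

set_option linter.all false

open IsLocalRing Filter MvPowerSeries NumberField

noncomputable section

namespace Vale.Agent.P022S.Mod

open Vale.Agent.P022 Vale.Agent.P022.H346 Vale.Agent.P022G.Mod
open Vale.Agent.P022G.Word (wd)
open Vale.Agent.P022E.As (Tg cc tt dd yy Gw mT ev0 pk)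
open Vale.Agent.P027M.S (Inert)
open Vale.Agent.P022D.Core (PS Coef)
open Vale.Agent.P022D.Sel (M2)
open Vale.Agent.P022E.Loc (Pl)
open Vale.Agent.P022F.End0 (evc evt evd evy gw_pk gw_inf)
open Ideal (torsionOf mem_torsionOf_iff)

section defs
variable {O : Type} [CommRing O]

/-- the good ideals: the determinant is also open and unramified -/
structure Gs (ϖ : O) (L : Pl O) (T Q : Finset ℕ) (r : ℕ) (a : Ideal (Tg O)) : Prop where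
  gw : Gw ϖ L T Q r a
  opn : ∃ U : Subgroup GQ, IsOpen (U : Set GQ) ∧ ∀ u ∈ U, dd u - 1 ∈ a
  unr : ∀ l : ℕ, l.Prime → l ∉ T → l ∉ Q → ∀ P : Ideal (𝓞 Qb), P.IsPrime → (l : 𝓞 Qb) ∈ P →
    ∀ s, Inert P s → dd s - 1 ∈ a

/-- the determinant acts through an open and unramified character on each element -/
def Dm (O : Type) [CommRing O] (T Q : Finset ℕ) (Y : Type) [AddCommGroup Y] [Module (Tg O) Y] :
    Prop := ∀ w : Y, (∃ U : Subgroup GQ, IsOpen (U : Set GQ) ∧ ∀ u ∈ U, (dd u : Tg O) • w = w) ∧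
  ∀ l : ℕ, l.Prime → l ∉ T → l ∉ Q → ∀ P : Ideal (𝓞 Qb), P.IsPrime → (l : 𝓞 Qb) ∈ P →
    ∀ s, Inert P s → (dd s : Tg O) • w = w

/-- the set of the good ideals -/
def GS (ϖ : O) (L : Pl O) (T Q : Finset ℕ) (r : ℕ) : Set (Ideal (Tg O)) := {a | Gs ϖ L T Q r a}

variable {ϖ : O} {L : Pl O} {T Q : Finset ℕ} {r : ℕ} {a b : Ideal (Tg O)}

theorem gd_of {Y : Type} [AddCommGroup Y] [Module (Tg O) Y] (h : P022E.As.Gm ϖ L T Q r Y)
    (k : Dm O T Q Y) : Gd (GS ϖ L T Q r) Y := fun w =>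
  have e : ∀ {s : GQ}, (dd s : Tg O) • w = w → dd s - 1 ∈ torsionOf (Tg O) Y w := fun c =>
    (mem_torsionOf_iff _ _).2 (by rw [sub_smul, c, one_smul, sub_self])
  ⟨h w, (k w).1.imp fun U c => ⟨c.1, fun u hu => e (c.2 u hu)⟩,
    fun l a1 a2 a3 P a4 a5 s a6 => e ((k w).2 l a1 a2 a3 P a4 a5 s a6)⟩

theorem Gs.inf (h : Gs ϖ L T Q r a) (k : Gs ϖ L T Q r b) : Gs ϖ L T Q r (a ⊓ b) := by
  obtain ⟨U, h1, h2⟩ := h.opn
  obtain ⟨V, h3, h4⟩ := k.opn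
  exact ⟨gw_inf h.gw k.gw, ⟨U ⊓ V, h1.inter h3, fun u hu => ⟨h2 u hu.1, h4 u hu.2⟩⟩,
    fun l a1 a2 a3 P a4 a5 s a6 => ⟨h.unr l a1 a2 a3 P a4 a5 s a6, k.unr l a1 a2 a3 P a4 a5 s a6⟩⟩

theorem Gs.mono (h : Gs ϖ L T ∅ 0 a) (Q : Finset ℕ) (r : ℕ) : Gs ϖ L T Q r a :=
  ⟨⟨h.gw.fin, h.gw.nil0, h.gw.nilt, h.gw.nild, h.gw.nily, h.gw.t1, h.gw.tc, h.gw.tm, h.gw.d1,
    h.gw.dm, h.gw.opn, fun l h1 h2 _ => h.gw.unr l h1 h2 (Finset.notMem_empty l), h.gw.clt,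
    h.gw.cld, fun i _ => h.gw.yz i (Nat.zero_le i)⟩, h.opn,
    fun l h1 h2 _ => h.unr l h1 h2 (Finset.notMem_empty l)⟩

/-- the trace modulo `a` -/
def tq (a : Ideal (Tg O)) (g : GQ) : Tg O ⧸ a := Ideal.Quotient.mk a (tt g)

/-- the determinant modulo `a` -/
def dq (h : Gw ϖ L T Q r a) : GQ →* (Tg O ⧸ a)ˣ := MonoidHom.toHomUnits
  { toFun := fun g => Ideal.Quotient.mk a (dd g)
    map_one' := Ideal.Quotient.eq.2 h.d1
    map_mul' := fun g k => Ideal.Quotient.eq.2 (h.dm g k) }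

theorem dq_val (h : Gw ϖ L T Q r a) (g : GQ) : (dq h g : Tg O ⧸ a) = Ideal.Quotient.mk a (dd g) :=
  rfl

theorem gw_tf (h : Gw ϖ L T Q r a) : TF (tq a) (dq h) :=
  ⟨Ideal.Quotient.eq.2 h.t1, fun g k => Ideal.Quotient.eq.2 (h.tc g k),
    fun g k => Ideal.Quotient.eq.2 (h.tm g k)⟩

theorem mem_N (h : Gw ϖ L T Q r a) {u : GQ} :
    u ∈ Kd.N (tq a) (dq h) ↔ (∀ g, tt (g * u) - tt g ∈ a) ∧ dd u - 1 ∈ a :=
  and_congr (forall_congr' fun g => Ideal.Quotient.eq)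
    (Units.ext_iff.trans (Ideal.Quotient.eq (x := dd u) (y := 1)))

theorem Gs.N_open (h : Gs ϖ L T Q r a) : IsOpen (Kd.N (tq a) (dq h.gw) : Set GQ) := by
  obtain ⟨U, h1, h2⟩ := h.gw.opn
  obtain ⟨V, h3, h4⟩ := h.opn
  exact Subgroup.isOpen_mono (H₁ := U ⊓ V)
    (fun u hu => (mem_N h.gw).2 ⟨h2 u hu.1, h4 u hu.2⟩) (h1.inter h3)

theorem Gs.N_unr (h : Gs ϖ L T Q r a) (l : ℕ) (a1 : l.Prime) (a2 : l ∉ T) (a3 : l ∉ Q)
    (P : Ideal (𝓞 Qb)) (a4 : P.IsPrime) (a5 : (l : 𝓞 Qb) ∈ P) (s : GQ) (a6 : Inert P s) :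
    s ∈ Kd.N (tq a) (dq h.gw) :=
  (mem_N h.gw).2 ⟨h.gw.unr l a1 a2 a3 P a4 a5 s a6, h.unr l a1 a2 a3 P a4 a5 s a6⟩

/-- `γ` generates the finite quotients of level `Q` which are `2`-groups -/
def Gen2 (T Q : Finset ℕ) {ι : Type} (γ : ι → GQ) : Prop :=
  ∀ (Γ : Type) [Group Γ] [Finite Γ] (f : GQ →* Γ), IsOpen {g : GQ | f g = 1} →
    (∀ g, ∃ k : ℕ, f g ^ 2 ^ k = 1) →
    (∀ l : ℕ, l.Prime → l ∉ T → l ∉ Q → ∀ P : Ideal (𝓞 Qb), P.IsPrime → (l : 𝓞 Qb) ∈ P →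
      ∀ s, Inert P s → f s = 1) →
    ∀ g, f g ∈ Subgroup.closure (Set.range fun i => f (γ i))

theorem Gen2.mod {ι : Type} {γ : ι → GQ} (h : Gen2 T Q γ) (K : Subgroup GQ) [K.Normal]
    (h1 : IsOpen (K : Set GQ)) (h2 : ∀ g, ∃ k : ℕ, g ^ 2 ^ k ∈ K)
    (h3 : ∀ l : ℕ, l.Prime → l ∉ T → l ∉ Q → ∀ P : Ideal (𝓞 Qb), P.IsPrime → (l : 𝓞 Qb) ∈ P →
      ∀ s, Inert P s → s ∈ K) (g : GQ) :
    ∃ w ∈ Subgroup.closure (Set.range γ), g⁻¹ * w ∈ K := by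
  haveI : Finite (GQ ⧸ K) := K.quotient_finite_of_isOpen h1
  have e : ∀ {x : GQ}, QuotientGroup.mk' K x = 1 ↔ x ∈ K := QuotientGroup.eq_one_iff _
  have := h (GQ ⧸ K) (QuotientGroup.mk' K) (by simp only [e]; exact h1)
    (fun g => (h2 g).imp fun k c => by rw [← map_pow]; exact e.2 c)
    (fun l a1 a2 a3 P a4 a5 s a6 => e.2 (h3 l a1 a2 a3 P a4 a5 s a6)) g
  rw [show (Set.range fun i => QuotientGroup.mk' K (γ i)) = QuotientGroup.mk' K '' Set.range γ from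
    Set.range_comp _ _, ← MonoidHom.map_closure] at this
  obtain ⟨w, hw, c⟩ := this
  exact ⟨w, hw, QuotientGroup.eq.1 c.symm⟩

end defs

variable {O : Type} [CommRing O] [IsDomain O] [IsDiscreteValuationRing O] [Coef O] {ϖ : O}
  {L : Pl O} {T Q : Finset ℕ} {r : ℕ} {a : Ideal (Tg O)}

/-- the facts on the point -/
structure Fs (ϖ : O) (L : Pl O) (T : Finset ℕ) : Prop where
  irr : Irreducible ϖ
  tr : ∀ g, (L.r g).trace ∈ maximalIdeal O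
  det : ∀ g, 1 - (L.r g).det ∈ maximalIdeal O
  cont : ∀ k : ℕ, IsOpen {g : GQ | (L.r g).map (Ideal.Quotient.mk (maximalIdeal O ^ k)) = 1}
  unr : ∀ l : ℕ, l.Prime → l ∉ T → ∀ P : Ideal (𝓞 Qb), P.IsPrime → (l : 𝓞 Qb) ∈ P →
    ∀ s, Inert P s → L.r s = 1

variable (H : Fs ϖ L T)
include H

theorem Fs.nil (h : Gw ϖ L T Q r a) : ∃ n : ℕ, mT L.r ^ n ≤ a :=
  haveI := h.fin
  P022F.Nak.nilp a _ fun _ hb => P022E.As.Bas.rad h H.irr.maximalIdeal_eq hb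

theorem Fs.pt (k : ℕ) (Q : Finset ℕ) (r : ℕ) : Gs ϖ L T Q r (pk ϖ L.r k) := by
  have hm : maximalIdeal O ^ (k + 1) = Ideal.span {ϖ ^ (k + 1)} := by
    rw [H.irr.maximalIdeal_eq, Ideal.span_singleton_pow]
  refine Gs.mono ⟨gw_pk H.irr H.cont H.unr k, ?_, fun l a1 a2 _ P a4 a5 s a6 => ?_⟩ Q r
  · let f : M2 O →+* M2 (O ⧸ maximalIdeal O ^ (k + 1)) :=
      (Ideal.Quotient.mk (maximalIdeal O ^ (k + 1))).mapMatrix
    refine ⟨(f.toMonoidHom.comp L.r).ker, H.cont (k + 1), fun u hu => ?_⟩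
    have hu' : f (L.r u) = 1 := hu
    show ev0 L.r _ ∈ Ideal.span {ϖ ^ (k + 1)}
    rw [map_sub, evd, map_one, ← hm, ← Ideal.Quotient.eq, RingHom.map_det, map_one]
    exact (congrArg Matrix.det hu').trans Matrix.det_one
  · show ev0 L.r _ ∈ Ideal.span {ϖ ^ (k + 1)}
    rw [map_sub, evd, map_one, H.unr l a1 a2 P a4 a5 s a6, Matrix.det_one, sub_self]
    exact zero_mem _

theorem Fs.gmT (Q : Finset ℕ) (r : ℕ) : Gs ϖ L T Q r (mT L.r) := by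
  have e : pk ϖ L.r 0 = mT L.r := by
    rw [Vale.Agent.P022D.As.pk, zero_add, pow_one, ← H.irr.maximalIdeal_eq]
    rfl
  exact e ▸ H.pt 0 Q r

theorem Fs.t_mem (g : GQ) : tt g ∈ mT L.r := by
  change ev0 L.r _ ∈ maximalIdeal O
  rw [evt]; exact H.tr g

theorem Fs.d_mem (g : GQ) : 1 - dd g ∈ mT L.r := by
  change ev0 L.r _ ∈ maximalIdeal O
  rw [map_sub, map_one, evd]; exact H.det g

theorem Fs.pow_N (h : Gw ϖ L T Q r a) (g : GQ) : ∃ k : ℕ, g ^ 2 ^ k ∈ Kd.N (tq a) (dq h) := by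
  obtain ⟨n, hn⟩ := H.nil h
  refine ⟨n, Kd.pow_mem (gw_tf h) _ (map_pow_bot hn) ?_ (Ideal.mem_map_of_mem _ (H.t_mem g))
    (Ideal.mem_map_of_mem (Ideal.Quotient.mk a) (H.d_mem g))⟩
  rw [← (gw_tf h).one]
  exact Ideal.mem_map_of_mem _ (H.t_mem 1)

/-- the traces of the increasing words and the determinants generate -/
theorem Fs.gen (h : Gs ϖ L T Q r a) {n : ℕ} {γ : Fin n → GQ} (hG : Gen2 T Q γ)
    (R : Subring (Tg O ⧸ a)) (h0 : ∀ o, Ideal.Quotient.mk a (cc o) ∈ R)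
    (h1 : ∀ s, Ideal.Quotient.mk a (tt (wd γ s)) ∈ R) (h2 : ∀ i, Ideal.Quotient.mk a (dd (γ i)) ∈ R)
    (h3 : ∀ i < r, Ideal.Quotient.mk a (yy i) ∈ R) (y : Tg O ⧸ a) : y ∈ R := by
  haveI := h.gw.fin
  haveI := Kd.N_normal (gw_tf h.gw)
  have g := Kd.gen (gw_tf h.gw) γ _ (hG.mod _ h.N_open (H.pow_N h.gw) h.N_unr) le_rfl R h1 h2
  obtain ⟨t, rfl⟩ := Ideal.Quotient.mk_surjective y
  induction t using MvPolynomial.induction_on with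
  | C o => exact h0 o
  | add p q hp hq => rw [map_add]; exact add_mem hp hq
  | mul_X p s hp =>
    rw [map_mul]
    refine mul_mem hp ?_
    rcases s with s | s | s
    · exact (g s).1
    · exact (g s).2
    · by_cases hs : s < r
      · exact h3 s hs
      · exact (Ideal.Quotient.eq_zero_iff_mem.2 (h.gw.yz s (not_lt.1 hs))).symm ▸ R.zero_mem

/-- **the family of the evaluations** -/
theorem Fs.fm {σ : Type} [Fintype σ] {n : ℕ} {γ : Fin n → GQ} (hG : Gen2 T Q γ) (v : σ → Tg O)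
    (hv : ∀ s, v s ∈ mT L.r) (h1 : ∀ s, ∃ z o, v z = tt (wd γ s) - cc o)
    (h2 : ∀ i, ∃ z o, v z = dd (γ i) - cc o) (h3 : ∀ i < r, ∃ z, v z = yy i) :
    Fm (GS ϖ L T Q r) (Ph v) (mT L.r) := by
  refine fm_of (fun a ha b hb => Gs.inf ha hb) hv (fun a ha => H.nil ha.gw) (fun a ha y => ?_)
    ⟨_, H.gmT Q r, le_rfl⟩
  obtain ⟨m, hm⟩ := H.nil ha.gw
  have k := ph_hm hm hv
  have e : ∀ {z o x}, v z = x - cc o → Ideal.Quotient.mk a x ∈ (Ph v a).range := fun {z o x} c =>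
    ⟨X z + C o, by
      rw [map_add, k.x, k.c, c, RingHom.comp_apply, ← map_add]
      exact congrArg _ (sub_add_cancel _ _)⟩
  exact H.gen ha hG (Ph v a).range (fun o => ⟨C o, k.c o⟩)
    (fun s => (h1 s).elim fun _ c => c.elim fun _ c => e c)
    (fun s => (h2 s).elim fun _ c => c.elim fun _ c => e c)
    (fun i hi => (h3 i hi).elim fun z c => ⟨X z, (k.x z).trans (by rw [c])⟩) y

end Vale.Agent.P022S.Mod
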