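import Vale.Agent.P022S.Mod.Dp3
import Vale.Agent.P022S.Utr
import Vale.Agent.P022S.Pt.T2
import Vale.Agent.P022G.Mod.Pkg

/-!
# P022S: the modules at all levels, for arbitrary names of the variables
-/

set_option linter.all false

open IsLocalRing Filter MvPowerSeries NumberField

noncomputable section

namespace Vale.Agent.P022S.Mod

open Vale.Agent.P022 Vale.Agent.P022G.Mod
open Vale.Agent.P022G (Hm)
open Vale.Agent.P022G.Word (wd)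
open Vale.Agent.P022E.As (Tg cc tt dd yy mT ev0 Dia Dq dl ee Lv2 Sb2)
open Vale.Agent.P027M.S (Inert)
open Vale.Agent.P022D.Core (PS Coef)
open Vale.Agent.P022D.PA (Base Cv)
open Vale.Agent.P022D.As.EA (cv_const cv_add cv_sub cv_mul cv_map)
open Vale.Agent.P022E.Loc (Pl)
open Vale.Agent.P022E.GW (Ov Gn)
open Vale.Agent.P022F.End0 (evc evt evd evy)
open Vale.Agent.P022G.Pt (Du An an_of ann_dual RD)
open Ideal (torsionOf mem_torsionOf_iff)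

variable {O : Type} [CommRing O] [IsDomain O] [IsDiscreteValuationRing O] [Coef O] {ϖ : O}
  {L : Pl O} {T : Finset ℕ} {σ σ₀ : Type} [Fintype σ] [Fintype σ₀] {r : ℕ}

/-- the good ideals of level `n` -/
abbrev gq (ϖ : O) (L : Pl O) (T : Finset ℕ) (q : ℕ → Fin r → ℕ) (n : ℕ) : Set (Ideal (Tg O)) :=
  GS ϖ L T (Finset.univ.image (q n)) r

/-- the annihilator of level zero -/
def A0 (v₀ : σ₀ → Tg O) (N : Type) [AddCommGroup N] [Module (Tg O) N] : Ideal (PS O σ₀) :=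
  ⨅ w : N, RingHom.ker (Ph v₀ (torsionOf (Tg O) N w))

theorem mem_A0 {v₀ : σ₀ → Tg O} {N : Type} [AddCommGroup N] [Module (Tg O) N] {f : PS O σ₀} :
    f ∈ A0 v₀ N ↔ ∀ w : N, Ph v₀ (torsionOf (Tg O) N w) f = 0 := by
  simp only [A0, Ideal.mem_iInf, RingHom.mem_ker]

variable [Base (PS O σ)] [Base (PS O σ₀)]

/-- the variables of level `n` and of level zero -/
structure Lv (ϖ : O) (L : Pl O) (T : Finset ℕ) (q : ℕ → Fin r → ℕ) (v : ℕ → σ → Tg O)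
    (v₀ : σ₀ → Tg O) (jr : PS O σ →+* PS O σ₀) (ey : Fin r → σ) : Prop where
  fs : Fs ϖ L T
  mem : ∀ n s, v n s ∈ mT L.r
  fm : ∀ n, Fm (gq ϖ L T q n) (Ph (v n)) (mT L.r)
  fm0 : Fm (GS ϖ L T ∅ 0) (Ph v₀) (mT L.r)
  base : ∀ n, ∀ a ∈ GS ϖ L T ∅ 0, Ph (v n) a = (Ph v₀ a).comp jr
  ey : ∀ n i, v n (ey i) = yy i

/-- the lifts of the symbols -/
structure La (ϖ : O) (L : Pl O) (T : Finset ℕ) (q : ℕ → Fin r → ℕ) (v : ℕ → σ → Tg O)
    (v₀ : σ₀ → Tg O) (jr : PS O σ →+* PS O σ₀) (ey : Fin r → σ) (lam : ℕ → Tg O →+* PS O σ) :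
    Prop where
  lv : Lv ϖ L T q v v₀ jr ey
  tw : Tw (mT L.r) ϖ (C ϖ) (gq ϖ L T q) (fun n => Ph (v n)) lam
  c : ∀ n o, lam n (cc o) = C o
  y : ∀ n (i : Fin r), lam n (yy i) = X (ey i)

variable {q : ℕ → Fin r → ℕ} {v : ℕ → σ → Tg O} {v₀ : σ₀ → Tg O} {jr : PS O σ →+* PS O σ₀}
  {ey : Fin r → σ}

theorem Lv.hq (H : Lv ϖ L T q v v₀ jr ey) (n : ℕ) {Q : Finset ℕ} {r' : ℕ} {a : Ideal (Tg O)}
    (ha : Gs ϖ L T Q r' a) : Hq (v n) a (Ph (v n) a) :=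
  (H.fs.nil ha.gw).elim fun _ hn => ph_hm hn (H.mem n)

theorem Lv.ex (H : Lv ϖ L T q v v₀ jr ey) : ∃ lam, La ϖ L T q v v₀ jr ey lam := by
  have k := fun n => ex_lam (H.fm n) C (fun a ha o => (H.hq n ha).c o)
    (fun i => if h : i < r then X (ey ⟨i, h⟩) else 0) fun a ha i => by
      split_ifs with h
      · exact ((H.hq n ha).x _).trans (by rw [H.ey])
      · exact (map_zero _).trans
          (Ideal.Quotient.eq_zero_iff_mem.2 (ha.gw.yz i (not_lt.1 h))).symm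
  choose lam h1 h2 h3 using k
  refine ⟨lam, H, ⟨H.fm, h1, fun n => h2 n ϖ, ?_, cc_mem.2 H.fs.irr.not_isUnit⟩, h2,
    fun n i => (h3 n i).trans (dif_pos i.2)⟩
  rw [← Ideal.mem_span_singleton, ← H.fs.irr.maximalIdeal_eq]
  exact Coef.two

omit [Base (PS O σ)] in
/-- a lift of level zero -/
theorem Fs.lam0 (H : Fs ϖ L T) (h : Fm (GS ϖ L T ∅ 0) (Ph v₀) (mT L.r))
    (hv : ∀ s, v₀ s ∈ mT L.r) :
    ∃ lam₀ : Tg O →+* PS O σ₀, Lm (GS ϖ L T ∅ 0) (Ph v₀) lam₀ ∧ ∀ o, lam₀ (cc o) = C o := by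
  obtain ⟨lam, h1, h2, -⟩ := ex_lam h C
    (fun a ha o => (H.nil ha.gw).elim fun _ hn => (ph_hm hn hv).c o) (fun _ => 0) fun a ha i =>
      (map_zero _).trans (Ideal.Quotient.eq_zero_iff_mem.2 (ha.gw.yz i (Nat.zero_le i))).symm
  exact ⟨lam, h1, h2⟩

omit [Base (PS O σ)] [Base (PS O σ₀)] [IsDomain O] [IsDiscreteValuationRing O] [Coef O] in
/-- **the universal traces of words** act as the traces -/
theorem tw_val {P : Type} [CommRing P] {Q : Finset ℕ} {r' m : ℕ} {a : Ideal (Tg O)}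
    (ha : Gs ϖ L T Q r' a) (ψ : P →+* Tg O ⧸ a) {p : Finset (Fin m) → P} {u : Fin m → Pˣ}
    (γ : Fin m → GQ) (hp : ∀ s, ψ (p s) = Ideal.Quotient.mk a (tt (wd γ s)))
    (hu : ∀ i, ψ (u i) = Ideal.Quotient.mk a (dd (γ i))) (w : FreeGroup (Fin m)) :
    ψ (Ut.tw p u w) = Ideal.Quotient.mk a (tt (FreeGroup.lift γ w)) ∧
      ψ (Ut.dw u w) = Ideal.Quotient.mk a (dd (FreeGroup.lift γ w)) :=
  have h := Ut.spec (gw_tf ha.gw) γ ψ hp hu
  ⟨h.2.1 w, h.2.2 w⟩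

variable {lam : ℕ → Tg O →+* PS O σ} (A : La ϖ L T q v v₀ jr ey lam)
include A

/-- the modules of level `n` -/
theorem La.mod (n : ℕ) {N : Type} [AddCommGroup N] [Module (Tg O) N] (g : Gd (gq ϖ L T q n) N) :
    ∃ _ : Module (PS O σ) N, Ac (gq ϖ L T q n) (Ph (v n)) N := (A.tw.fm n).mod g

/-- **the modules of level zero** -/
theorem La.mod0 {N : Type} [AddCommGroup N] [Module (Tg O) N] (g : Gd (GS ϖ L T ∅ 0) N) :
    ∃ _ : Module (PS O σ) N, (∀ n, Ac (gq ϖ L T q n) (Ph (v n)) N) ∧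
      Module.annihilator (PS O σ) N = (A0 v₀ N).comap jr := by
  have f : Fm (GS ϖ L T ∅ 0) (Ph (v 0)) (mT L.r) :=
    fm_of (fun a ha b hb => Gs.inf ha hb) (A.lv.mem 0) (fun a ha => A.lv.fs.nil ha.gw)
      (fun a ha => (A.tw.fm 0).sur a (Gs.mono ha _ _)) ⟨_, A.lv.fs.gmT _ _, le_rfl⟩
  obtain ⟨i, c⟩ := f.mod g
  refine ⟨i, fun n => c.mono fun a ha =>
    ⟨Gs.mono ha _ _, (A.lv.base n a ha).trans (A.lv.base 0 a ha).symm⟩, ?_⟩
  ext x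
  rw [f.mem_ann c g, Ideal.mem_comap, mem_A0]
  exact forall_congr' fun w => by rw [A.lv.base 0 _ (g w)]; rfl

/-- the lifts of level `n` and of level zero -/
theorem La.jrK {lam₀ : Tg O →+* PS O σ₀} (l : Lm (GS ϖ L T ∅ 0) (Ph v₀) lam₀) (n : ℕ) (t : Tg O) :
    jr (lam n t) - lam₀ t ∈ Kr (GS ϖ L T ∅ 0) (Ph v₀) :=
  jr_Kr l (A.tw.lm n) (fun a ha => ⟨Gs.mono ha _ _, A.lv.base n a ha⟩) t

/-- symbols which vanish at level zero -/
theorem La.mem_e (n : ℕ) {t : Tg O} (h : ∀ a, Gs ϖ L T ∅ 0 a → t ∈ a) :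
    jr (lam n t) ∈ Kr (GS ϖ L T ∅ 0) (Ph v₀) := mem_Kr.2 fun a ha => by
  have := A.tw.lm n a (Gs.mono ha _ _) t
  rw [A.lv.base n a ha] at this
  exact this.trans (Ideal.Quotient.eq_zero_iff_mem.2 (h a ha))

theorem La.ue {τq : ℕ → Fin r → GQ} (hq : ∀ n i, q n i ∉ T)
    (ine : ∀ n i, ∃ P, Ov (q n i) P ∧ Inert P (τq n i)) (n : ℕ) (i : Fin r ⊕ Fin r) :
    jr (uu lam τq n i) ∈ Kr (GS ϖ L T ∅ 0) (Ph v₀) := by
  refine A.mem_e n fun a ha => ?_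
  rcases i with i | i
  · change 1 + yy i - 1 ∈ a
    rw [add_sub_cancel_left]
    exact ha.gw.yz _ (Nat.zero_le _)
  · obtain ⟨P, b, c⟩ := ine n i
    have e := Ideal.Quotient.eq.2
      (ha.gw.unr _ b.1 (hq n i) (Finset.notMem_empty _) P b.2.1 b.2.2 _ c 1)
    rw [one_mul, Ideal.Quotient.eq.2 ha.gw.t1, map_ofNat] at e
    rw [← Ideal.Quotient.eq_zero_iff_mem]
    change Ideal.Quotient.mk a ((tt _ - (1 + yy i)) * (1 + yy i) ^ (2 ^ n - 1) - 1) = 0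
    simp only [map_sub, map_mul, map_pow, map_add, map_one]
    rw [e, Ideal.Quotient.eq_zero_iff_mem.2 (ha.gw.yz _ (Nat.zero_le _))]
    ring

section fam
variable {N : ℕ → Type} [∀ n, AddCommGroup (N n)] [∀ n, Module (Tg O) (N n)]
  [∀ n, Module (PS O σ) (N n)] (c : ∀ n, Ac (gq ϖ L T q n) (Ph (v n)) (N n))
  {τq : ℕ → Fin r → GQ} (dia : ∀ n, Dia (O := O) n (τq n) (N n))
include c dia

/-- the hypothesis of `RGAL` -/
theorem La.gal (hq : ∀ n i, q n i ∉ T) (ine : ∀ n i, ∃ P, Ov (q n i) P ∧ Inert P (τq n i))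
    (g : ∀ n, Gd (gq ϖ L T q n) (N n)) (W : Set (Tg O)) (hW : ∀ t ∈ W, t ∈ mT L.r)
    (hk : ∀ t ∈ W, ∀ n (w : N n), t • w = 0) (n k : ℕ) :
    ∃ a : Ideal (Tg O), Gs ϖ L T (Finset.univ.image (q n)) r a ∧ a ≤ mT L.r ∧ (∀ t ∈ W, t ∈ a) ∧
      (∀ i, dd (τq n i) - (1 + yy i) * (tt (τq n i) - (1 + yy i)) ∈ a) ∧
      ∀ Ψ : PS O σ →+* Tg O ⧸ a, Hm ((Ideal.Quotient.mk a).comp MvPolynomial.C)
        (fun z => Ideal.Quotient.mk a (v n z)) Ψ →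
        RingHom.ker Ψ ≤ Module.annihilator (PS O σ) (Du N n) ⊔ maximalIdeal (PS O σ) ^ k := by
  obtain ⟨a, ha, a1, a2, a3⟩ := (A.tw.fm n).chev (c n) (g n) (A.lv.fs.gmT _ _) k
  obtain ⟨m, hm⟩ := A.lv.fs.nil ha.gw
  refine ⟨a, ha, a1, fun t ht => a2 t (hW t ht) (hk t ht n),
    fun i => a2 _ ?_ fun w => by rw [sub_smul, (dia n).dq, sub_self], fun Ψ h => ?_⟩
  · obtain ⟨P, b, c'⟩ := ine n i
    change ev0 L.r _ ∈ maximalIdeal O
    simp only [map_sub, map_mul, map_add, map_one, evt, evd, evy]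
    rw [A.lv.fs.unr _ b.1 (hq n i) P b.2.1 b.2.2 _ c', Matrix.det_one, Matrix.trace_one,
      Fintype.card_fin]
    convert (maximalIdeal O).zero_mem using 1
    norm_num
  · rw [ph_eq hm (A.lv.mem n) h, ann_dual]
    exact a3

/-- the relation between the trace and the parameters -/
theorem La.rel {U : Ultrafilter ℕ} {a : Fin r ⊕ Fin r → PS O σ}
    (hu : ∀ i, Cv (U : Filter ℕ) (fun n => uu lam τq n i) (a i)) (i : Fin r) {tn : ℕ → PS O σ}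
    {ta : PS O σ} (h1 : ∀ n, ∀ b ∈ gq ϖ L T q n,
      Ph (v n) b (tn n) = Ideal.Quotient.mk b (tt (τq n i))) (h2 : Cv (U : Filter ℕ) tn ta) :
    ta - (1 + X (ey i)) * (2 + a (Sum.inr i)) ∈ An U (Du N) := by
  refine an_of U (cv_sub h2
    (cv_mul (cv_const _) (cv_add (cv_const _) (hu (Sum.inr i))))) fun n w => ?_
  have e : (1 + X (ey i)) * (2 + uu lam τq n (Sum.inr i)) =
      lam n ((1 + yy i) * (1 + ee n (τq n) i)) := by
    rw [← A.y n i, uu]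
    simp only [map_add, map_mul, map_sub, map_one]
    change _ * (2 + (lam n (ee n (τq n) i) - 1)) = _
    ring
  rw [sub_smul, (c n).all (h1 n), e, A.tw.sm (c n), ← sub_smul]
  exact rel_t (dia n) i w

end fam

section md
variable {F : Type} [Field F] {Sf : P022D.R.Dat O F} {I : Type} {Y0 : I → Type} {W0 : Type}
  [∀ i, AddCommGroup (Y0 i)] [∀ i, Module (Tg O) (Y0 i)] [AddCommGroup W0] [Module (Tg O) W0]
  {ses : I → I → I → Prop} {ig : I} {iJ : Finset L.C → I} {b : I → ℕ} {c : ℕ}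
  {τq φ : ℕ → Fin r → GQ} {Yb : ℕ → I → Type} {Wc : ℕ → Type}
  [∀ n i, AddCommGroup (Yb n i)] [∀ n i, Module (Tg O) (Yb n i)] [∀ n, AddCommGroup (Wc n)]
  [∀ n, Module (Tg O) (Wc n)] [∀ n i, Module (PS O σ) (Yb n i)] [∀ i, Module (PS O σ) (Y0 i)]
  {S₀ S₁ κ : Type} [CommRing S₀] [CommRing S₁] [Algebra S₀ S₁]

/-- **MD0** -/
theorem La.md (X : RD (PS O σ) S₀ S₁ L.C κ) (hπ : X.π = C ϖ)
    (he : (Kr (GS ϖ L T ∅ 0) (Ph v₀)).comap jr ≤ X.𝔢) (dim : X.d = X.a + (r + r + 2))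
    (hq : ∀ n i, q n i ∉ T) (ine : ∀ n i, ∃ P, Ov (q n i) P ∧ Inert P (τq n i))
    (W : ∀ n, Lv2 ϖ Sf L Y0 W0 ses ig iJ b c n (q n) (τq n) (φ n) (Yb n) (Wc n))
    (sb0 : ∀ i, ∃ b, Sb2 (mT L.r) b (Y0 i)) (cY : ∀ n i, Ac (gq ϖ L T q n) (Ph (v n)) (Yb n i))
    (c0 : ∀ n i, Ac (gq ϖ L T q n) (Ph (v n)) (Y0 i)) {U : Ultrafilter ℕ}
    (hU : (U : Filter ℕ) ≤ atTop) {a : Fin r ⊕ Fin r → PS O σ} {d : PS O σ}
    (hu : ∀ i, Cv (U : Filter ℕ) (fun n => uu lam τq n i) (a i))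
    (hd : Cv (U : Filter ℕ) (DD lam q φ c) d)
    (gal : ∀ J, X.Gal X.E (An U (Du fun n => Yb n (iJ J))))
    (unr : ∀ J l, l ∉ J → ∀ t ∈ X.τP l, ∀ n (w : Yb n (iJ J)), t • w = 0)
    (new : ∀ l n, ∀ b ∈ gq ϖ L T q n, Ph (v n) b (X.DP l) = Ideal.Quotient.mk b (tt (L.φ l))) :
    Pt.MD0 X U (uu lam τq) a (DD lam q φ c) d (fun i => Du fun n => Yb n i)
      (fun i => CharacterModule (Finset (Fin r) → Y0 i)) ses iJ := by
  refine Pt.md0 (X := X) (hπ ▸ A.tw.dm W sb0 cY c0) hU hu hd (fun n i => he (A.ue hq ine n i))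
    (by rw [Fintype.card_sum, Fintype.card_fin]; exact dim) gal unr
    ⟨c, fun J l hl n w => ((cY n _).all (t := tt (L.φ l) ^ c) (fun b hb => by
      rw [map_pow, map_pow, new l n b hb]) w).trans ((W n).new J l hl w)⟩

end md

end Vale.Agent.P022S.Mod
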