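import Vale.Agent.P022S.Mod.Dp
import Vale.Agent.P022S.Mod.Gw
import Vale.Agent.P022S.Clf
import Vale.Agent.P022G.Crv.Det1

/-!
# P022S: the primes of level zero in characteristic two satisfy the hypotheses of `Clf.good`
-/

set_option linter.all false

open IsLocalRing NumberField

noncomputable section

namespace Vale.Agent.P022S.Mod

open Vale.Agent.P022 Vale.Agent.P022.H346 Vale.Agent.P022G.Mod Vale.Agent.P022G
open Vale.Agent.P022E.As (Tg cc tt dd yy Gw mT ev0)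
open Vale.Agent.P027M.S (Inert)
open Vale.Agent.P022D.Core (Coef)
open Vale.Agent.P022D.PA (Base)
open Vale.Agent.P022D.Sel (Ginf)
open Vale.Agent.P022E.Loc (Pl Tm)
open Vale.Agent.P022F.End0 (evc evt evd evy)
open scoped Pointwise

/-- the places -/
structure Pls {O : Type} [CommRing O] (L : Pl O) (T : Finset ℕ) : Prop where
  hT : T = insert 0 (insert 2 (L.W ∪ L.C))
  hP : ∀ l ∈ L.W ∪ L.C, (L.P l).IsPrime ∧ (l : 𝓞 Qb) ∈ L.P l
  h2 : L.P 2 = P022D.Loc2.PP 2
  cj : IsConj L.c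
  tm : ∀ l ∈ L.W ∪ L.C, Tm l (L.P l) (L.τ l) (L.φ l)

/-- a character of `2`-power order with trivial local data is trivial -/
theorem Pls.det1 {O : Type} [CommRing O] {L : Pl O} {T : Finset ℕ} (hL : Pls L T) {Γ : Type}
    [CommGroup Γ] (η : GQ →* Γ)
    (ho : IsOpen {g : GQ | η g = 1}) (two : ∀ g, ∃ k : ℕ, η g ^ 2 ^ k = 1)
    (h2 : ∀ g ∈ P022D.W.dec (L.P 2), η g = 1) (hc : η L.c = 1)
    (ht : ∀ l ∈ L.W ∪ L.C, η (L.τ l) = 1)
    (unr : ∀ l : ℕ, l.Prime → l ∉ T → ∀ P : Ideal (𝓞 Qb), P.IsPrime → (l : 𝓞 Qb) ∈ P →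
      ∀ s, Inert P s → η s = 1) : ∀ g, η g = 1 := by
  have hN : Nice.Gd η.ker := by
    refine ⟨inferInstance, ho, fun g => ?_, fun l hl hl2 σ hσ => ?_⟩
    · obtain ⟨k, hk⟩ := two g
      exact ⟨k, by rw [MonoidHom.mem_ker, map_pow, hk]⟩
    · obtain ⟨P, hP, hlP, hx⟩ := hσ
      rw [MonoidHom.mem_ker]
      by_cases hT : l ∈ T
      · have hm : l ∈ L.W ∪ L.C := by
          rw [hL.hT, Finset.mem_insert, Finset.mem_insert] at hT
          rcases hT with h | h | h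
          · exact absurd h hl.ne_zero
          · exact absurd h hl2
          · exact h
        obtain ⟨g, hg⟩ := P027M.F.Tra.trans hl hP (hL.hP l hm).1 hlP (hL.hP l hm).2
        obtain ⟨N, hNt⟩ := (hL.tm l hm).tame Γ η ho
        have hin : g * σ * g⁻¹ ∈ H443.inP (L.P l) := fun x => by
          have := Ideal.smul_mem_pointwise_smul g _ P (hx (g⁻¹ • x))
          rw [smul_sub, smul_inv_smul, ← hg] at this
          rw [mul_smul, mul_smul]
          exact this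
        obtain ⟨k, p, hp, e⟩ := hNt.cyc _ hin
        obtain ⟨m, hm1, hm2⟩ := hNt.odd p hp
        obtain ⟨j, hj⟩ := two p
        have e1 : η p = 1 := Crv.odd_two hm1 hm2 hj
        have e2 := congrArg η e
        rw [map_mul, map_mul, map_inv, map_mul, map_pow, ht l hm, e1, one_pow, mul_one,
          mul_comm (η g), mul_inv_cancel_right] at e2
        exact e2
      · exact unr l hl hT P hP hlP σ hx
  obtain ⟨γ, hγ, e5⟩ := Crv.ex_five (P := L.P 2) (by rw [hL.h2]; exact P022D.Loc2.PP_prime 2)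
    (by rw [hL.h2]; exact P022D.Loc2.p_mem_PP 2)
  have hgen := Nice.gen hN hL.cj e5
  intro g
  have hx : QuotientGroup.mk' η.ker g ∈ Subgroup.closure
      {QuotientGroup.mk' η.ker L.c, QuotientGroup.mk' η.ker γ} := by rw [hgen]; trivial
  have hb : Subgroup.closure {QuotientGroup.mk' η.ker L.c, QuotientGroup.mk' η.ker γ} ≤ ⊥ := by
    rw [Subgroup.closure_le]
    rintro y (rfl | rfl)
    · exact (QuotientGroup.eq_one_iff _).2 hc
    · exact (QuotientGroup.eq_one_iff _).2 (h2 γ hγ)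
  exact (QuotientGroup.eq_one_iff _).1 (hb hx)

variable {O : Type} [CommRing O] [IsDomain O] [IsDiscreteValuationRing O] [Coef O] {ϖ : O}
  {L : Pl O} {T : Finset ℕ}

theorem Fs.cc_mem (H : Fs ϖ L T) {o : O} (ho : o ∈ maximalIdeal O) {J : Ideal (Tg O)}
    (h : cc ϖ ∈ J) : cc o ∈ J := by
  rw [H.irr.maximalIdeal_eq] at ho
  obtain ⟨c, rfl⟩ := Ideal.mem_span_singleton'.1 ho
  rw [show (cc (c * ϖ) : Tg O) = cc c * cc ϖ from map_mul MvPolynomial.C c ϖ]
  exact J.mul_mem_left _ h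

/-- the determinant is trivial modulo `ϖ` at level zero -/
theorem Fs.det_one (H : Fs ϖ L T) (hL : Pls L T) {r : ℕ} {a : Ideal (Tg O)}
    (h : Gs ϖ L T ∅ r a) (g : GQ) : dd g - 1 ∈ a ⊔ Ideal.span {cc ϖ} := by
  let η : GQ →* (Tg O ⧸ (a ⊔ Ideal.span {cc ϖ}))ˣ :=
    (Units.map (Ideal.Quotient.factor le_sup_left : Tg O ⧸ a →+* _).toMonoidHom).comp (dq h.gw)
  have e : ∀ g, η g = 1 ↔ dd g - 1 ∈ a ⊔ Ideal.span {cc ϖ} := fun g =>
    Units.ext_iff.trans (Ideal.Quotient.eq (x := dd g) (y := 1))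
  have k : ∀ g ∈ L.DD, η g = 1 := fun g hg => (e g).2 (by
    have k1 := H.cc_mem (H.det g) (J := a ⊔ Ideal.span {cc ϖ})
      (Ideal.mem_sup_right (Ideal.mem_span_singleton_self _))
    rw [show (cc (1 - (L.r g).det) : Tg O) = 1 - cc (L.r g).det by
      rw [← map_one (MvPolynomial.C : O →+* Tg O)]; exact map_sub MvPolynomial.C _ _] at k1
    have k2 := Ideal.sub_mem _ (Ideal.mem_sup_left (h.gw.cld g hg)) k1
    convert k2 using 1
    ring)
  refine (e g).1 (hL.det1 (Γ := (Tg O ⧸ (a ⊔ Ideal.span {cc ϖ}))ˣ) η ?_ (fun g => ?_) (fun g hg => k g (Or.inl hg))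
    (k _ (Or.inr (Or.inl rfl))) (fun l hl => k _ (Or.inr (Or.inr (Or.inl ⟨l, hl, rfl⟩))))
    (fun l a1 a2 P a4 a5 s a6 => (e s).2 (Ideal.mem_sup_left
      (h.unr l a1 a2 (Finset.notMem_empty l) P a4 a5 s a6))) g)
  · obtain ⟨U, hU, c⟩ := h.opn
    exact Subgroup.isOpen_mono (H₂ := η.ker) (fun u hu => (e u).2 (Ideal.mem_sup_left (c u hu))) hU
  · obtain ⟨n, hn⟩ := H.pow_N h.gw g
    exact ⟨n, by rw [← map_pow, e]; exact Ideal.mem_sup_left ((mem_N h.gw).1 hn).2⟩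

variable {P : Type} [CommRing P] [Base P] {Φ : ∀ a : Ideal (Tg O), P →+* Tg O ⧸ a}
  {lam : Tg O →+* P} {E : Ideal P}

theorem lam_det (H : Fs ϖ L T) (hL : Pls L T) (h : Fm (GS ϖ L T ∅ 0) Φ (mT L.r))
    (l : Lm (GS ϖ L T ∅ 0) Φ lam) (hK : Kr (GS ϖ L T ∅ 0) Φ ≤ E) (hπ : lam (cc ϖ) ∈ E) (g : GQ) :
    lam (dd g) - 1 ∈ E := by
  refine P022D.Good.closed_of_noeth E _ fun k => ?_
  obtain ⟨a, ha, e⟩ := chev0 h k
  obtain ⟨x, hx, y, hy, c⟩ := Submodule.mem_sup.1 (H.det_one hL ha g)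
  obtain ⟨z, rfl⟩ := Ideal.mem_span_singleton'.1 hy
  rw [← map_one lam, ← map_sub, ← c, map_add, map_mul]
  exact add_mem (sup_le_sup_right hK _ (e ((l a ha x).trans (Ideal.Quotient.eq_zero_iff_mem.2 hx))))
    (Ideal.mem_sup_left (E.mul_mem_left _ hπ))

/-- **a surface of level zero** -/
theorem sf_of (H : Fs ϖ L T) (hL : Pls L T) (h : Fm (GS ϖ L T ∅ 0) Φ (mT L.r))
    (l : Lm (GS ϖ L T ∅ 0) Φ lam) (hE : E.IsPrime) (hK : Kr (GS ϖ L T ∅ 0) Φ ≤ E)
    (hπ : lam (cc ϖ) ∈ E) (hd : (2 : WithBot ℕ∞) ≤ ringKrullDim (P ⧸ E))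
    (hs : ∃ s ∈ Ginf, lam (tt s) ∉ E) : Clf.Sf (fun g => lam (tt g)) T E := by
  have d1 := lam_det H hL h l hK hπ
  have kr : ∀ {t : Tg O}, (∀ a ∈ GS ϖ L T ∅ 0, t ∈ a) → lam t ∈ E := fun c => hK (lam_Kr l c)
  have cm : ∀ o ∈ maximalIdeal O, lam (cc o) ∈ E := fun o ho =>
    H.cc_mem ho (J := E.comap lam) hπ
  refine ⟨hE, ?_, ⟨?_, fun g k => ?_, fun g k => ?_⟩, fun g => (l.max h _).2 (H.t_mem g),
    fun k => ?_, fun p a1 a2 Q a4 a5 s a6 g => ?_, fun f hf => ?_, hd, hs⟩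
  · have := cm 2 Coef.two
    rwa [show (cc (2 : O) : Tg O) = 2 from map_ofNat MvPolynomial.C 2, map_ofNat] at this
  · have := kr fun a ha => ha.gw.t1
    rw [map_sub, map_ofNat] at this
    rw [← map_ofNat (Ideal.Quotient.mk E) 2]
    exact Ideal.Quotient.eq.2 this
  · exact Ideal.Quotient.eq.2 (by rw [← map_sub]; exact kr fun a ha => ha.gw.tc g k)
  · have k1 := kr fun a ha => ha.gw.tm g k
    rw [MonoidHom.one_apply, Units.val_one, one_mul, ← map_mul, ← map_add, Ideal.Quotient.eq]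
    have k2 := E.add_mem k1 (E.mul_mem_right (lam (tt (g * k⁻¹))) (d1 k))
    convert k2 using 1
    simp only [map_sub, map_mul, map_add]
    ring
  · obtain ⟨a, ha, e⟩ := chev0 h k
    obtain ⟨U, hU, c⟩ := ha.gw.opn
    refine ⟨U, hU, fun u hu g => sup_le_sup_right hK _ (e ?_)⟩
    rw [← map_sub]
    exact (l a ha _).trans (Ideal.Quotient.eq_zero_iff_mem.2 (c u hu g))
  · rw [← map_sub]
    exact kr fun a ha => ha.gw.unr p a1 a2 (Finset.notMem_empty p) Q a4 a5 s a6 g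
  · obtain ⟨a, ha, e⟩ := chev0 h 2
    obtain ⟨t, ht⟩ := Ideal.Quotient.mk_surjective (Φ a f)
    have k1 : f - lam t ∈ E ⊔ maximalIdeal P ^ 2 := sup_le_sup_right hK _ (e (by
      rw [RingHom.mem_ker, map_sub, l a ha, ht, sub_self]))
    have hle : E ⊔ maximalIdeal P ^ 2 ≤ maximalIdeal P :=
      sup_le (le_maximalIdeal hE.ne_top) (Ideal.pow_le_self two_ne_zero)
    have k2 : t ∈ mT L.r := (l.max h t).1 (by simpa using Ideal.sub_mem _ hf (hle k1))
    have k3 : ∀ t : Tg O, lam t - lam (cc (ev0 L.r t)) ∈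
        Ideal.span (Set.range fun g => lam (tt g)) ⊔ E := by
      intro t
      induction t using MvPolynomial.induction_on with
      | C o => rw [show ev0 L.r (MvPolynomial.C o) = o from evc _ o]; simp [cc]
      | add p q hp hq =>
        have := add_mem hp hq
        convert this using 1
        simp only [cc, map_add]
        ring
      | mul_X p s hp =>
        have k4 : lam (MvPolynomial.X s) - lam (cc (ev0 L.r (MvPolynomial.X s))) ∈
            Ideal.span (Set.range fun g => lam (tt g)) ⊔ E := by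
          rcases s with g | g | i
          · exact sub_mem (Ideal.mem_sup_left (Ideal.subset_span ⟨g, rfl⟩))
              (Ideal.mem_sup_right (cm _ (H.t_mem g)))
          · have k5 := E.add_mem (d1 g) (cm _ (H.d_mem g))
            refine Ideal.mem_sup_right ?_
            convert k5 using 1
            simp only [cc, dd, map_sub, map_one]
            ring
          · rw [show ev0 L.r (MvPolynomial.X (Sum.inr (Sum.inr i))) = 0 from evy _ i]
            simp only [cc, map_zero, sub_zero]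
            exact Ideal.mem_sup_right (kr fun a ha => ha.gw.yz i (Nat.zero_le i))
        have := add_mem (Ideal.mul_mem_right (lam (MvPolynomial.X s)) _ hp)
          (Ideal.mul_mem_left _ (lam (cc (ev0 L.r p))) k4)
        convert this using 1
        simp only [cc, map_mul]
        ring
    have j1 : E ⊔ maximalIdeal P ^ 2 ≤
        Ideal.span (Set.range fun g => lam (tt g)) ⊔ maximalIdeal P ^ 2 ⊔ E :=
      sup_le le_sup_right (le_sup_right.trans le_sup_left)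
    have j2 : Ideal.span (Set.range fun g => lam (tt g)) ⊔ E ≤
        Ideal.span (Set.range fun g => lam (tt g)) ⊔ maximalIdeal P ^ 2 ⊔ E :=
      sup_le_sup_right le_sup_left _
    have := add_mem (add_mem (j1 k1) (j2 (k3 t))) (Ideal.mem_sup_right (cm _ k2))
    rwa [sub_add_sub_cancel, sub_add_cancel] at this

/-- **the choice of the elements**: the trace avoids finitely many surfaces -/
theorem ex_sig (H : Fs ϖ L T) (hL : Pls L T) (h : Fm (GS ϖ L T ∅ 0) Φ (mT L.r))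
    (l : Lm (GS ϖ L T ∅ 0) Φ lam) (s : Finset (Ideal P))
    (hs : ∀ E ∈ s, E.IsPrime ∧ Kr (GS ϖ L T ∅ 0) Φ ≤ E ∧ lam (cc ϖ) ∈ E ∧
      (2 : WithBot ℕ∞) ≤ ringKrullDim (P ⧸ E) ∧ ∃ g ∈ Ginf, lam (tt g) ∉ E)
    {U : Subgroup GQ} (hU : IsOpen (U : Set GQ)) (hn : U.Normal) (σ : GQ) :
    ∃ u ∈ U, u ∈ Ginf ∧ ∀ E ∈ s, lam (tt (σ * u)) ∉ E := by
  haveI := Base.cpl (P := P)
  haveI : Finite (ResidueField P) := Base.fin (P := P)
  obtain ⟨u, a, b, V, -, -, -, c, e⟩ := Clf.avoid s (fun E k => sf_of H hL h l (hs E k).1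
    (hs E k).2.1 (hs E k).2.2.1 (hs E k).2.2.2.1 (hs E k).2.2.2.2) hU hn σ
  exact ⟨u, a, b, fun E k m => (e E k).2 (Ideal.mem_sup_left m)⟩

end Vale.Agent.P022S.Mod
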