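import Vale.Agent.P022G.Word

/-!
# P022S: increasing words with further letters
-/

set_option linter.all false

namespace Vale.Agent.P022S.Mod

open Vale.Agent.P022G.Word (wd)

variable {G : Type*} [Group G] {n m : ℕ}

theorem wd_mod (N : Subgroup G) [N.Normal] {γ γ' : Fin n → G} (h : ∀ i, (γ i)⁻¹ * γ' i ∈ N)
    (s : Finset (Fin n)) : (wd γ s)⁻¹ * wd γ' s ∈ N := by
  rw [← QuotientGroup.eq]
  change QuotientGroup.mk' N _ = QuotientGroup.mk' N _
  rw [wd, wd, map_list_prod, map_list_prod, List.map_map, List.map_map]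
  exact congrArg (fun f => ((s.sort (· ≤ ·)).map f).prod) (funext fun i => QuotientGroup.eq.2 (h i))

theorem prod_filter {α : Type*} (p : α → Prop) [DecidablePred p] (f : α → G)
    (h : ∀ a, ¬ p a → f a = 1) (l : List α) :
    (l.map f).prod = ((l.filter fun a => p a).map f).prod := by
  induction l with
  | nil => rfl
  | cons a l ih =>
    by_cases c : p a
    · simp [List.filter_cons, c, ih]
    · simp [List.filter_cons, c, ih, h a c]

theorem wd_map (e : Fin n ↪o Fin m) (γ' : Fin m → G) (s : Finset (Fin n)) :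
    wd γ' (s.map e.toEmbedding) = wd (fun i => γ' (e i)) s := by
  rw [wd, wd, ← Finset.map_sort e.toEmbedding s (· ≤ ·) (· ≤ ·) fun a _ b _ => e.le_iff_le.symm,
    List.map_map]
  rfl

/-- the letters outside the image of `e` act trivially -/
theorem wd_emb (e : Fin n ↪o Fin m) (γ' : Fin m → G) (h : ∀ j, j ∉ Set.range e → γ' j = 1)
    (s : Finset (Fin m)) :
    wd γ' s = wd (fun i => γ' (e i)) (Finset.univ.filter fun i => e i ∈ s) := by
  classical
  rw [← wd_map, wd, wd, prod_filter (· ∈ Set.range e) γ' h]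
  congr 2
  refine ((List.toFinset_sort (· ≤ ·) ((Finset.sort_nodup _ _).filter _)).2
    ((Finset.pairwise_sort _ _).filter _)).symm.trans ?_
  congr 1
  ext j
  simp only [List.mem_toFinset, List.mem_filter, Finset.mem_sort, Finset.mem_map,
    Finset.mem_filter, Finset.mem_univ, true_and, decide_eq_true_eq]
  exact ⟨fun ⟨a, i, b⟩ => ⟨i, b ▸ a, b⟩, fun ⟨i, a, b⟩ => ⟨b ▸ a, i, b⟩⟩

theorem wd_append (γ : Fin n → G) (s : Finset (Fin (n + m))) :
    wd (Fin.append γ fun _ : Fin m => 1) s =
      wd γ (Finset.univ.filter fun i => Fin.castAdd m i ∈ s) := by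
  have := wd_emb (Fin.castAddOrderEmb m) (Fin.append γ fun _ : Fin m => 1) (fun j hj => by
    induction j using Fin.addCases with
    | left i => exact absurd ⟨i, rfl⟩ hj
    | right i => exact Fin.append_right _ _ i) s
  rw [this]
  exact congrArg₂ _ (funext fun i => Fin.append_left _ _ i) rfl

theorem wd_left (γ : Fin n → G) (δ : Fin m → G) (s : Finset (Fin n)) :
    wd (Fin.append γ δ) (s.map (Fin.castAddEmb m)) = wd γ s := by
  have := wd_map (Fin.castAddOrderEmb m) (Fin.append γ δ) s
  exact this.trans (congrArg₂ _ (funext fun i => Fin.append_left _ _ i) rfl)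

theorem wd_one (γ : Fin n → G) (i : Fin n) : wd γ {i} = γ i := by simp [wd]

end Vale.Agent.P022S.Mod
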