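import Vale.Agent.P022S.Mod.Gw
import Vale.Agent.P022S.Mod.Wd
import Vale.Agent.P022G.Mod.Sub
import Vale.Agent.P022D.As.Cov

/-!
# P022S: modules without the auxiliary primes, level zero, the point as a limit
-/

set_option linter.all false

open IsLocalRing Filter MvPowerSeries NumberField

noncomputable section

namespace Vale.Agent.P022S.Mod

open Vale.Agent.P022 Vale.Agent.P022G.Mod
open Vale.Agent.P022G (subL resJ)
open Vale.Agent.P022G.Word (wd)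
open Vale.Agent.P022E.As (Tg cc tt dd yy Gw mT ev0 pk Lv2 Out2)
open Vale.Agent.P027M.S (Inert)
open Vale.Agent.P022D.Core (PS Coef)
open Vale.Agent.P022E.Loc (Pl)
open Ideal (torsionOf mem_torsionOf_iff)

section sub
variable {O : Type} [CommRing O] {ϖ : O} {L : Pl O} {T X Q : Finset ℕ} {r : ℕ} {a : Ideal (Tg O)}

/-- the auxiliary primes of the level -/
def Ax (L : Pl O) (X : Finset ℕ) : Prop := ∀ l ∈ X, l.Prime ∧ (L.P l).IsPrime ∧
  (l : 𝓞 Qb) ∈ L.P l ∧ Inert (L.P l) (L.τ l) ∧ L.r (L.τ l) = 1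

theorem gs_unr (hX : Ax L X) (hQ : ∀ l ∈ X, l ∉ Q) (h : Gs ϖ (subL L X) (T \ X) Q r a) (l : ℕ)
    (hl : l ∈ X) : (∀ g, tt (g * L.τ l) - tt g ∈ a) ∧ dd (L.τ l) - 1 ∈ a :=
  have k := hX l hl
  (mem_N h.gw).1 (h.N_unr l k.1 (fun c => (Finset.mem_sdiff.1 c).2 hl) (hQ l hl) _ k.2.1 k.2.2.1 _
    k.2.2.2.1)

theorem gs_sub (hX : Ax L X) (hQ : ∀ l ∈ X, l ∉ Q) (k : Gs ϖ (subL L X) (T \ X) Q r a) :
    Gs ϖ L T Q r a := by
  have h := k.gw
  refine ⟨⟨h.fin, h.nil0, h.nilt, h.nild, h.nily, h.t1, h.tc, h.tm, h.d1, h.dm, h.opn,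
    fun l h1 h2 => h.unr l h1 fun k => h2 (Finset.mem_sdiff.1 k).1, h.clt, fun g hg => ?_, h.yz⟩,
    k.opn, fun l h1 h2 => k.unr l h1 fun k => h2 (Finset.mem_sdiff.1 k).1⟩
  rcases hg with c | c | ⟨l, hl, rfl⟩ | c
  · exact h.cld g (Or.inl c)
  · exact h.cld g (Or.inr (Or.inl c))
  · by_cases hx : l ∈ X
    · rw [(hX l hx).2.2.2.2, Matrix.det_one, show (cc 1 : Tg O) = 1 from map_one MvPolynomial.C]
      exact (gs_unr hX hQ k l hx).2
    · refine h.cld _ (Or.inr (Or.inr (Or.inl ⟨l, ?_, rfl⟩)))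
      rcases Finset.mem_union.1 hl with c | c
      · exact Finset.mem_union_left _ c
      · exact Finset.mem_union_right _ (Finset.mem_sdiff.2 ⟨c, hx⟩)
  · exact h.cld g (Or.inr (Or.inr (Or.inr c)))

theorem Dm.up {Y : Type} [AddCommGroup Y] [Module (Tg O) Y] {T' : Finset ℕ} (h : Dm O T Q Y)
    (e : T ⊆ T') : Dm O T' Q Y := fun w => ⟨(h w).1, fun l a b => (h w).2 l a fun c => b (e c)⟩

theorem gm_sub (hX : Ax L X) (hQ : ∀ l ∈ X, l ∉ Q) {Y : Type} [AddCommGroup Y] [Module (Tg O) Y]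
    (h : P022E.As.Gm ϖ (subL L X) (T \ X) Q r Y) (k : Dm O (T \ X) Q Y) :
    P022E.As.Gm ϖ L T Q r Y := fun w => (gs_sub hX hQ (gd_of h k w)).gw

theorem dm_zero {Y : Type} [AddCommGroup Y] [Module (Tg O) Y] [Subsingleton Y] : Dm O T Q Y :=
  fun w => ⟨⟨⊤, isOpen_univ, fun _ _ => Subsingleton.elim _ _⟩,
    fun _ _ _ _ _ _ _ _ _ => Subsingleton.elim _ _⟩

theorem dm_op {I : Type} {Y : I → Type} [∀ i, AddCommGroup (Y i)] [∀ i, Module (Tg O) (Y i)]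
    (h : ∀ i, Dm O T Q (Y i)) : ∀ o, Dm O T Q (Op Y o)
  | none => dm_zero
  | some i => h i

/-- auxiliary generators which lie in inertia groups act trivially at level zero -/
theorem Gs.app (h : Gs ϖ L T ∅ 0 a) {n : ℕ} (γ : Fin n → GQ) {τ' : Fin r → GQ}
    (hτ : ∀ i, ∃ (l : ℕ) (P : Ideal (𝓞 Qb)), l.Prime ∧ l ∉ T ∧ P.IsPrime ∧ (l : 𝓞 Qb) ∈ P ∧
      Inert P (τ' i)) :
    (∀ s, tt (wd (Fin.append γ τ') s) - tt (wd (Fin.append γ fun _ : Fin r => 1) s) ∈ a) ∧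
      (∀ i, dd (τ' i) - 1 ∈ a) ∧ ∀ i g, tt (g * τ' i) - tt g ∈ a := by
  haveI := Kd.N_normal (gw_tf h.gw)
  have k : ∀ i, τ' i ∈ Kd.N (tq a) (dq h.gw) := fun i => by
    obtain ⟨l, P, a1, a2, a3, a4, a5⟩ := hτ i
    exact h.N_unr l a1 a2 (Finset.notMem_empty l) P a3 a4 _ a5
  refine ⟨fun s => ?_, fun i => ((mem_N h.gw).1 (k i)).2, fun i => ((mem_N h.gw).1 (k i)).1⟩
  have := ((mem_N h.gw).1 (wd_mod (Kd.N (tq a) (dq h.gw))
    (γ := Fin.append γ fun _ : Fin r => 1) (γ' := Fin.append γ τ') (fun j => by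
      induction j using Fin.addCases with
      | left i => rw [Fin.append_left, Fin.append_left, inv_mul_cancel]; exact one_mem _
      | right i => rw [Fin.append_right, Fin.append_right, inv_one, one_mul]; exact k i) s)).1
    (wd (Fin.append γ fun _ : Fin r => 1) s)
  rwa [mul_inv_cancel_left] at this

end sub

section lv
variable {O F : Type} [CommRing O] [IsLocalRing O] [Field F] [CharP F 2] {ϖ : O} {L : Pl O}
  {T X : Finset ℕ} {r : ℕ} {I : Type} {Y0 : I → Type} {W0 : Type} [∀ i, AddCommGroup (Y0 i)]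
  [∀ i, Module (Tg O) (Y0 i)] [AddCommGroup W0] [Module (Tg O) W0] {ses : I → I → I → Prop}
  {ig : I} {iJ : Finset (subL L X).C → I} {b : I → ℕ} {c n : ℕ} {q : Fin r → ℕ}
  {τ φ : Fin r → GQ} {Yb : I → Type} {Wc : Type} [∀ i, AddCommGroup (Yb i)]
  [∀ i, Module (Tg O) (Yb i)] [AddCommGroup Wc] [Module (Tg O) Wc] {Sf : P022D.R.Dat O F}

theorem gs_top {Q : Finset ℕ} : Gs ϖ L T Q r (⊤ : Ideal (Tg O)) :=
  ⟨gw_top, ⟨⊤, isOpen_univ, fun _ _ => trivial⟩, fun _ _ _ _ _ _ _ _ _ => trivial⟩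

/-- **one level, for all places** -/
theorem lv_sub (hX : Ax L X) (hT : Sf.T = T \ X) (hT' : Sf.T ⊆ T) (hq : ∀ i, q i ∉ X)
    (V : Lv2 ϖ Sf (subL L X) Y0 W0 ses ig iJ b c n q τ φ Yb Wc)
    (dY : ∀ i, Dm O Sf.T (Finset.univ.image q) (Yb i)) (dW : Dm O Sf.T (Finset.univ.image q) Wc) :
    Lv2 ϖ (upD Sf T hT') L (Op Y0) W0 (sesO ses) (some ig) (iO X iJ) (fun o => o.elim 0 b) c n
      q τ φ (Op Yb) Wc := by
  have hQ : ∀ l ∈ X, l ∉ Finset.univ.image q := fun l hl k => by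
    obtain ⟨i, -, rfl⟩ := Finset.mem_image.1 k
    exact hq i hl
  refine ⟨V.hτ, V.hφ, ?_, gm_sub hX hQ (hT ▸ V.gmC) (hT ▸ dW), ?_, V.diaC, ?_, ?_, ?_, ?_, ?_,
    V.red, V.piC, V.flat, V.cyc, fun J l hl g => ?_, fun J l hl => ?_, V.desc⟩
  · rintro (_ | i)
    · exact gm_zero
    · exact gm_sub hX hQ (Y := Yb i) (hT ▸ V.gm i) (hT ▸ dY i)
  · rintro (_ | i)
    · exact ⟨fun _ _ => Subsingleton.elim _ _, fun _ _ => Subsingleton.elim _ _⟩
    · exact V.dia i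
  · rintro _ _ _ ⟨i, j, k, h, rfl, rfl, rfl⟩
    exact V.ex i j k h
  · rintro (_ | i)
    · exact sb_zero _
    · exact V.sb i
  · rintro (_ | i)
    · exact fun _ => Subsingleton.elim _ _
    · exact V.pi i
  · rintro (_ | i)
    · exact fun w _ => ⟨w, Subsingleton.elim _ _⟩
    · exact V.free i
  · rintro (_ | i)
    · exact ⟨0, fun _ _ => Subsingleton.elim _ _, fun _ _ => Subsingleton.elim _ _,
        fun _ _ => ⟨0, Subsingleton.elim _ _⟩⟩
    · exact V.fib i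
  · by_cases h : ∀ a ∈ J, (a : ℕ) ∉ X
    · rw [iO_pos h]
      by_cases hx : (l : ℕ) ∈ X
      · intro (w : Yb _)
        have := (mem_torsionOf_iff _ _).1
          ((gs_unr hX hQ (gd_of (hT ▸ V.gm _) (hT ▸ dY _) w) l hx).1 g)
        exact sub_eq_zero.1 ((sub_smul _ _ w).symm.trans this)
      · exact V.unr _ ⟨l.1, Finset.mem_sdiff.2 ⟨l.2, hx⟩⟩ (fun k => hl ((mem_resJ hx).1 k)) g
    · rw [iO_neg h]
      exact fun _ => Subsingleton.elim _ _
  · by_cases h : ∀ a ∈ J, (a : ℕ) ∉ X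
    · rw [iO_pos h]
      exact V.new _ ⟨l.1, Finset.mem_sdiff.2 ⟨l.2, h l hl⟩⟩ ((mem_resJ (h l hl)).2 hl)
    · rw [iO_neg h]
      exact fun _ => Subsingleton.elim _ _

theorem gm0_sub (hX : Ax L X) (h : ∀ i, P022E.As.Gm ϖ (subL L X) (T \ X) ∅ 0 (Y0 i))
    (k : ∀ i, Dm O (T \ X) ∅ (Y0 i)) : ∀ o, P022E.As.Gm ϖ L T ∅ 0 (Op Y0 o)
  | none => gm_zero
  | some i => gm_sub hX (fun _ _ => Finset.notMem_empty _) (Y := Y0 i) (h i) (k i)

end lv

variable {O : Type} [CommRing O] [IsDomain O] [IsDiscreteValuationRing O] [Coef O] {ϖ : O}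
  {L L' : Pl O} {σ : Type} [Fintype σ] {v : σ → Tg O} {𝔊 : Set (Ideal (Tg O))}

/-- **the point is a limit of systems which occur in the module** -/
theorem out_of (fm : Fm 𝔊 (Ph v) (mT L.r)) (top : ⊤ ∈ 𝔊) (hb : ∀ j, pk ϖ L.r j ∈ 𝔊)
    (hv : ∀ s, ev0 L.r (v s) = 0) {W0 : Type} [AddCommGroup W0] [Module (Tg O) W0] (gd : Gd 𝔊 W0)
    (hA : ∀ f, (∀ w : W0, Ph v (torsionOf (Tg O) W0 w) f = 0) → constantCoeff f = 0)
    (e : L'.r = L.r) : Out2 ϖ L' W0 := by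
  classical
  intro j
  rw [e]
  haveI := P022D.As.base O σ
  let a : Finset W0 → Ideal (Tg O) := fun s => s.inf fun v => torsionOf (Tg O) W0 v
  have ha : ∀ s, a s ∈ 𝔊 := fun s => by
    induction s using Finset.induction_on with
    | empty => exact top
    | insert v s _ ih =>
      have : a (insert v s) = torsionOf (Tg O) W0 v ⊓ a s := Finset.inf_insert
      rw [this]
      exact fm.inf _ (gd v) _ ih
  have hev : ∀ f, Ph v (pk ϖ L.r j) f = Ideal.Quotient.mk _ (cc (constantCoeff f)) := fun f => by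
    have e : (fun s => Ideal.Quotient.mk (pk ϖ L.r j) (v s)) = fun _ => 0 :=
      funext fun s => Ideal.Quotient.eq_zero_iff_mem.2 (by
        change ev0 L.r _ ∈ Ideal.span _
        rw [hv s]
        exact zero_mem _)
    rw [Ph, e, P022D.R.evl_zero]
    rfl
  have z : ∀ a ∈ 𝔊, ∀ b ∈ 𝔊, a ≤ b → ∀ f, Ph v a f = 0 → Ph v b f = 0 := fun a ha b hb e f k =>
    (fm.fac a ha b hb e f 0 (k.trans (map_zero _).symm)).trans (map_zero _)
  have key : ∃ s, ∀ f, Ph v (a s) f = 0 → Ph v (pk ϖ L.r j) f = 0 := by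
    by_contra hn
    push Not at hn
    obtain ⟨y, hy⟩ := cpt (P := PS O σ)
      (fun s : Finset W0 => {f | Ph v (a s) f = 0 ∧ Ph v (pk ϖ L.r j) f ≠ 0})
      (fun s s' => ⟨s ∪ s', fun f hf => ⟨z _ (ha _) _ (ha _)
          (Finset.inf_mono Finset.subset_union_left) f hf.1, hf.2⟩, fun f hf => ⟨z _ (ha _) _ (ha _)
          (Finset.inf_mono Finset.subset_union_right) f hf.1, hf.2⟩⟩) hn fun s => by
        obtain ⟨k, hk⟩ := fm.ker _ (ha s)
        obtain ⟨k', hk'⟩ := fm.ker _ (hb j)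
        refine ⟨k + k', fun x hx y hxy => ?_⟩
        have e1 := hk _ (Ideal.pow_le_pow_right (Nat.le_add_right k k') hxy)
        have e2 := hk' _ (Ideal.pow_le_pow_right (Nat.le_add_left k' k) hxy)
        rw [map_sub, sub_eq_zero] at e1 e2
        exact ⟨e1 ▸ hx.1, e2 ▸ hx.2⟩
    refine (hy ∅).2 ?_
    rw [hev, hA y fun w => z _ (ha _) _ (gd w) (Finset.inf_le (Finset.mem_singleton_self w)) y
      (hy {w}).1]
    exact (congrArg _ (map_zero MvPolynomial.C)).trans (map_zero _)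
  obtain ⟨s, hs⟩ := key
  refine ⟨s, fun p hp => ?_⟩
  have hp' : p ∈ a s := (Finset.le_inf (a := Ideal.span {p}) fun v hv =>
    (Ideal.span_singleton_le_iff_mem _).2 ((mem_torsionOf_iff _ _).2 (hp v hv)))
      (Ideal.mem_span_singleton_self p)
  have hc := fm.inf _ (ha s) _ (hb j)
  obtain ⟨f, hf⟩ := fm.sur _ hc (Ideal.Quotient.mk _ p)
  have e1 := hs f ((fm.fac _ hc _ (ha s) inf_le_left f p hf).trans
    (Ideal.Quotient.eq_zero_iff_mem.2 hp'))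
  rw [fm.fac _ hc _ (hb j) inf_le_right f p hf, Ideal.Quotient.eq_zero_iff_mem] at e1
  have e2 : ev0 L.r p ∈ Ideal.span {ϖ ^ (j + 1)} := e1
  exact (pow_dvd_pow ϖ (Nat.le_succ j)).trans (Ideal.mem_span_singleton.1 e2)

end Vale.Agent.P022S.Mod
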