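import Vale.Agent.P022S.Mod.La
import Vale.Agent.P022S.Mod.Sub

/-!
# P022S: the variables of all levels
-/

set_option linter.all false

open IsLocalRing Filter MvPowerSeries NumberField

noncomputable section

namespace Vale.Agent.P022S.Mod

open Vale.Agent.P022 Vale.Agent.P022G.Mod
open Vale.Agent.P022G (Hm)
open Vale.Agent.P022G.Word (wd)
open Vale.Agent.P022E.As (Tg cc tt dd yy mT ev0)
open Vale.Agent.P027M.S (Inert)
open Vale.Agent.P022D.Core (PS Coef)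
open Vale.Agent.P022D.PA (Base)
open Vale.Agent.P022E.Loc (Pl)
open Vale.Agent.P022F.End0 (evc evt evd evy)

variable {O : Type} [CommRing O] [IsDomain O] [IsDiscreteValuationRing O] [Coef O] {ϖ : O}
  {L : Pl O} {T : Finset ℕ} {σ σ₀ : Type} [Fintype σ] [Fintype σ₀] {r m : ℕ}

theorem mT_of {t : Tg O} (h : ev0 L.r t = 0) : t ∈ mT L.r := by
  change ev0 L.r t ∈ maximalIdeal O
  rw [h]; exact zero_mem _

/-- the evaluation of level `n` factors through level zero -/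
theorem base_of (H : Fs ϖ L T) {v : σ → Tg O} {v₀ : σ₀ → Tg O} (hv : ∀ s, v s ∈ mT L.r)
    (hv0 : ∀ s, v₀ s ∈ mT L.r) {jr : PS O σ →+* PS O σ₀} (hc : ∀ o, jr (C o) = C o)
    {a : Ideal (Tg O)} (ha : Gs ϖ L T ∅ 0 a)
    (hx : ∀ z, Ph v₀ a (jr (X z)) = Ideal.Quotient.mk a (v z)) : Ph v a = (Ph v₀ a).comp jr := by
  obtain ⟨n, hn⟩ := H.nil ha.gw
  exact (ph_eq hn hv ⟨fun o => (congrArg _ (hc o)).trans ((ph_hm hn hv0).c o), hx⟩).symm

theorem r_app (H : Fs ϖ L T) (γ : Fin m → GQ) {τ' : Fin r → GQ}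
    (hτ : ∀ i, ∃ (l : ℕ) (P : Ideal (𝓞 Qb)), l.Prime ∧ l ∉ T ∧ P.IsPrime ∧ (l : 𝓞 Qb) ∈ P ∧
      Inert P (τ' i)) : (∀ i, L.r (τ' i) = 1) ∧
      (∀ j, L.r (Fin.append γ τ' j) = L.r (Fin.append γ (fun _ : Fin r => 1) j)) ∧
      ∀ s, L.r (wd (Fin.append γ τ') s) = L.r (wd (Fin.append γ fun _ : Fin r => 1) s) := by
  have k : ∀ i, L.r (τ' i) = 1 := fun i => by
    obtain ⟨l, P, a1, a2, a3, a4, a5⟩ := hτ i
    exact H.unr l a1 a2 P a3 a4 _ a5
  have e : ∀ j, L.r (Fin.append γ τ' j) = L.r (Fin.append γ (fun _ : Fin r => 1) j) := fun j => by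
    induction j using Fin.addCases with
    | left i => rw [Fin.append_left, Fin.append_left]
    | right i => rw [Fin.append_right, Fin.append_right, k, map_one]
  refine ⟨k, e, fun s => ?_⟩
  rw [wd, wd, map_list_prod, map_list_prod, List.map_map, List.map_map]
  exact congrArg (fun f => ((s.sort (· ≤ ·)).map f).prod) (funext e)

/-- the centred symbols -/
def vS (L : Pl O) (c γ : Fin m → GQ) : Finset (Fin m) ⊕ Fin m → Tg O :=
  Sum.elim (fun s => tt (wd γ s) - cc (L.r (wd c s)).trace)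
    fun i => dd (γ i) - cc (L.r (c i)).det

theorem vS_ev (γ : Fin m → GQ) (s : Finset (Fin m) ⊕ Fin m) : ev0 L.r (vS L γ γ s) = 0 := by
  rcases s with s | s
  · exact (map_sub _ _ _).trans (by rw [evt, evc, sub_self])
  · exact (map_sub _ _ _).trans (by rw [evd, evc, sub_self])

variable [Base (PS O σ)] [Base (PS O σ₀)]

/-- **the variables of all levels**; `e`, `ey`, `e₀` are the names of the variables -/
theorem lv_of (H : Fs ϖ L T) (γ : Fin m → GQ) {q : ℕ → Fin r → ℕ} {τ' : ℕ → Fin r → GQ}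
    (g0 : Gen2 T ∅ γ) (gn : ∀ n, Gen2 T (Finset.univ.image (q n)) (Fin.append γ (τ' n)))
    (hτ : ∀ n i, ∃ (l : ℕ) (P : Ideal (𝓞 Qb)), l.Prime ∧ l ∉ T ∧ P.IsPrime ∧ (l : 𝓞 Qb) ∈ P ∧
      Inert P (τ' n i))
    {v : ℕ → σ → Tg O} {v₀ : σ₀ → Tg O} {jr : PS O σ →+* PS O σ₀}
    (e : Finset (Fin (m + r)) ⊕ Fin (m + r) → σ) (ey : Fin r → σ)
    (e₀ : Finset (Fin m) ⊕ Fin m → σ₀) (all : ∀ z, (∃ s, z = e s) ∨ ∃ i, z = ey i)
    (all0 : ∀ z, ∃ s, z = e₀ s)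
    (h1 : ∀ n s, v n (e s) = vS L (Fin.append γ fun _ => 1) (Fin.append γ (τ' n)) s)
    (h2 : ∀ n i, v n (ey i) = yy i) (h0 : ∀ s, v₀ (e₀ s) = vS L γ γ s)
    (jc : ∀ o, jr (C o) = C o)
    (j1 : ∀ s, jr (X (e (Sum.inl s))) =
      X (e₀ (Sum.inl (Finset.univ.filter fun i => Fin.castAdd r i ∈ s))))
    (j2 : ∀ i, jr (X (e (Sum.inr (Fin.castAdd r i)))) = X (e₀ (Sum.inr i)))
    (j3 : ∀ i, jr (X (e (Sum.inr (Fin.natAdd m i)))) = 0) (j4 : ∀ i, jr (X (ey i)) = 0) :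
    Lv ϖ L T q v v₀ jr ey := by
  have m0 : ∀ s, v₀ s ∈ mT L.r := fun z => by
    obtain ⟨s, rfl⟩ := all0 z
    rw [h0]; exact mT_of (vS_ev γ s)
  have m1 : ∀ n s, v n s ∈ mT L.r := fun n z => by
    obtain ⟨-, a2, a3⟩ := r_app H γ (hτ n)
    rcases all z with ⟨s, rfl⟩ | ⟨i, rfl⟩
    · rw [h1]
      refine mT_of (Eq.trans ?_ (vS_ev (L := L) (Fin.append γ (τ' n)) s))
      rcases s with s | s
      · simp only [vS, Sum.elim_inl, a3]
      · simp only [vS, Sum.elim_inr, a2]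
    · rw [h2]; exact mT_of (evy _ _)
  refine ⟨H, m1, fun n => H.fm (gn n) _ (m1 n) (fun s => ⟨_, _, h1 n (Sum.inl s)⟩)
    (fun i => ⟨_, _, h1 n (Sum.inr i)⟩) fun i hi => ⟨_, h2 n ⟨i, hi⟩⟩,
    H.fm g0 _ m0 (fun s => ⟨_, _, h0 (Sum.inl s)⟩) (fun i => ⟨_, _, h0 (Sum.inr i)⟩)
      fun i hi => absurd hi (Nat.not_lt_zero i), fun n a ha => ?_, h2⟩
  obtain ⟨k, hk⟩ := H.nil ha.gw
  have x := (ph_hm hk m0).x
  obtain ⟨a1, a2, -⟩ := Gs.app ha γ (hτ n)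
  refine base_of H (m1 n) m0 jc ha fun z => ?_
  rcases all z with ⟨s | s, rfl⟩ | ⟨i, rfl⟩
  · rw [j1, x, h0, h1]
    simp only [vS, Sum.elim_inl, map_sub]
    rw [Ideal.Quotient.eq.2 (a1 s), wd_append]
  · induction s using Fin.addCases with
    | left i =>
      rw [j2, x, h0, h1]
      simp only [vS, Sum.elim_inr, Fin.append_left]
    | right i =>
      rw [j3, map_zero, h1]
      simp only [vS, Sum.elim_inr, Fin.append_right, map_one, Matrix.det_one]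
      rw [show (cc 1 : Tg O) = 1 from map_one MvPolynomial.C]
      exact (Ideal.Quotient.eq_zero_iff_mem.2 (a2 i)).symm
  · rw [j4, map_zero, h2]
    exact (Ideal.Quotient.eq_zero_iff_mem.2 (ha.gw.yz _ (Nat.zero_le _))).symm

end Vale.Agent.P022S.Mod
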