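import Vale.Agent.P022S.Mod.Gw
import Vale.Agent.P022D.As.Cov

/-! # P022S: the point is a limit of systems which occur in the module; controlled modules -/

set_option linter.all false

open IsLocalRing Filter MvPowerSeries NumberField

noncomputable section

namespace Vale.Agent.P022S.Mod

open Vale.Agent.P022 Vale.Agent.P022G.Mod
open Vale.Agent.P022E.As (Tg cc tt dd yy Gw mT ev0 pk Out2)
open Vale.Agent.P027M.S (Inert)
open Vale.Agent.P022D.Core (PS Coef)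
open Vale.Agent.P022D.Sel (M2)
open Vale.Agent.P022E.Loc (Pl)
open Ideal (torsionOf mem_torsionOf_iff)

theorem Gs.top {O : Type} [CommRing O] (ϖ : O) (L : Pl O) (T Q : Finset ℕ) (r : ℕ) :
    Gs ϖ L T Q r ⊤ :=
  ⟨⟨inferInstance, ⟨0, trivial⟩, fun _ => ⟨0, trivial⟩, fun _ => ⟨0, trivial⟩,
    fun _ => ⟨0, trivial⟩, trivial, fun _ _ => trivial, fun _ _ => trivial, trivial,
    fun _ _ => trivial, ⟨⊤, isOpen_univ, fun _ _ _ => trivial⟩,
    fun _ _ _ _ _ _ _ _ _ _ => trivial, fun _ _ => trivial, fun _ _ => trivial,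
    fun _ _ => trivial⟩, ⟨⊤, isOpen_univ, fun _ _ => trivial⟩, fun _ _ _ _ _ _ _ _ _ => trivial⟩

/-- the good ideals for the smaller set of places are good; `L'` differs from `L` in `C` -/
theorem Gs.sub {O : Type} [CommRing O] {ϖ : O} {L : Pl O} {T X Q : Finset ℕ} {r : ℕ}
    (hQ : ∀ l ∈ X, l ∉ Q) (hX : ∀ l ∈ X, l.Prime ∧ (L.P l).IsPrime ∧ (l : 𝓞 Qb) ∈ L.P l ∧
      Inert (L.P l) (L.τ l) ∧ L.r (L.τ l) = 1)
    {a : Ideal (Tg O)} (h : Gs ϖ { L with C := L.C \ X } (T \ X) Q r a) : Gs ϖ L T Q r a := by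
  have g := h.gw
  refine ⟨⟨g.fin, g.nil0, g.nilt, g.nild, g.nily, g.t1, g.tc, g.tm, g.d1, g.dm, g.opn,
    fun l h1 h2 => g.unr l h1 fun k => h2 (Finset.mem_sdiff.1 k).1, g.clt, fun s hs => ?_, g.yz⟩,
    h.opn, fun l h1 h2 => h.unr l h1 fun k => h2 (Finset.mem_sdiff.1 k).1⟩
  rcases hs with k | k | ⟨l, hl, rfl⟩ | k
  · exact g.cld s (Or.inl k)
  · exact g.cld s (Or.inr (Or.inl k))
  · by_cases m : l ∈ X
    · obtain ⟨a1, a2, a3, a4, a5⟩ := hX l m
      rw [a5, Matrix.det_one, show cc (1 : O) = 1 from map_one MvPolynomial.C]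
      exact h.unr l a1 (fun k => (Finset.mem_sdiff.1 k).2 m) (hQ l m) _ a2 a3 _ a4
    · refine g.cld _ (Or.inr (Or.inr (Or.inl ⟨l, ?_, rfl⟩)))
      rcases Finset.mem_union.1 hl with k | k
      · exact Finset.mem_union_left _ k
      · exact Finset.mem_union_right _ (Finset.mem_sdiff.2 ⟨k, m⟩)
  · exact g.cld s (Or.inr (Or.inr (Or.inr k)))

section
variable {P T : Type} [CommRing P] [CommRing T] {𝔊 : Set (Ideal T)}

theorem inf_mem [IsLocalRing P] {Φ : ∀ a : Ideal T, P →+* T ⧸ a} {m : Ideal T} (fm : Fm 𝔊 Φ m)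
    (ht : ⊤ ∈ 𝔊) {Y : Type} [AddCommGroup Y] [Module T Y] (gd : Gd 𝔊 Y) (s : Finset Y) :
    (s.inf fun v => torsionOf T Y v) ∈ 𝔊 := by
  classical
  induction s using Finset.induction_on with
  | empty => exact ht
  | insert v s _ ih => rw [Finset.inf_insert]; exact fm.inf _ (gd v) _ ih

/-- **TRA**, abstract form -/
theorem tra_of [IsLocalRing P] {Φ : ∀ a : Ideal T, P →+* T ⧸ a} {m : Ideal T} (fm : Fm 𝔊 Φ m)
    (ht : ⊤ ∈ 𝔊) {Y Y' : Type} [AddCommGroup Y] [Module T Y] [AddCommGroup Y'] [Module T Y']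
    (gd : Gd 𝔊 Y) (gd' : Gd 𝔊 Y')
    (hT : ∀ w : Y, ∃ s : Finset Y', ∀ p : T, (∀ v ∈ s, p • v = 0) → p • w = 0) {f : P}
    (hf : ∀ v, Φ (torsionOf T Y' v) f = 0) (w : Y) : Φ (torsionOf T Y w) f = 0 := by
  have ha := inf_mem fm ht gd'
  obtain ⟨s, hs⟩ := hT w
  have le : (s.inf fun v => torsionOf T Y' v) ≤ torsionOf T Y w := fun p hp =>
    (mem_torsionOf_iff _ _).2 (hs p fun v hv => (mem_torsionOf_iff _ _).1
      ((Finset.inf_le hv : (s.inf fun v => torsionOf T Y' v) ≤ _) hp))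
  obtain ⟨t, ht⟩ := Ideal.Quotient.mk_surjective (Φ (s.inf fun v => torsionOf T Y' v) f)
  rw [fm.fac _ (ha s) _ (gd w) le f t ht.symm, Ideal.Quotient.eq_zero_iff_mem]
  refine (mem_torsionOf_iff _ _).2 (hs t fun v hv => (mem_torsionOf_iff _ _).1 ?_)
  rw [← Ideal.Quotient.eq_zero_iff_mem,
    ← fm.fac _ (ha s) _ (gd' v) (Finset.inf_le hv) f t ht.symm]
  exact hf v

/-- a good ideal which contains the annihilator contains finitely many element annihilators -/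
theorem fin_of [P022D.PA.Base P] {Φ : ∀ a : Ideal T, P →+* T ⧸ a} {m : Ideal T} (fm : Fm 𝔊 Φ m)
    (ht : ⊤ ∈ 𝔊) {Y : Type} [AddCommGroup Y] [Module T Y] (gd : Gd 𝔊 Y) {b : Ideal T}
    (hb : b ∈ 𝔊) (h : ∀ f, (∀ w, Φ (torsionOf T Y w) f = 0) → Φ b f = 0) :
    ∃ s : Finset Y, ∀ p : T, (∀ v ∈ s, p • v = 0) → p ∈ b := by
  classical
  let a : Finset Y → Ideal T := fun s => s.inf fun v => torsionOf T Y v
  have ha : ∀ s, a s ∈ 𝔊 := inf_mem fm ht gd
  have key : ∃ s, ∀ f, Φ (a s) f = 0 → Φ b f = 0 := by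
    by_contra hn
    push Not at hn
    obtain ⟨y, hy⟩ := cpt (P := P) (fun s : Finset Y => {f | Φ (a s) f = 0 ∧ Φ b f ≠ 0})
      (fun s s' => ⟨s ∪ s', fun f hf => ⟨(fm.fac _ (ha _) _ (ha _)
          (Finset.inf_mono Finset.subset_union_left) f 0 (hf.1.trans (map_zero _).symm)).trans
          (map_zero _), hf.2⟩, fun f hf => ⟨(fm.fac _ (ha _) _ (ha _)
          (Finset.inf_mono Finset.subset_union_right) f 0 (hf.1.trans (map_zero _).symm)).trans
          (map_zero _), hf.2⟩⟩) hn fun s => by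
        obtain ⟨k, hk⟩ := fm.ker _ (ha s)
        obtain ⟨k', hk'⟩ := fm.ker _ hb
        refine ⟨k + k', fun x hx y hxy => ?_⟩
        have e1 := hk _ (Ideal.pow_le_pow_right (Nat.le_add_right k k') hxy)
        have e2 := hk' _ (Ideal.pow_le_pow_right (Nat.le_add_left k' k) hxy)
        rw [map_sub, sub_eq_zero] at e1 e2
        exact ⟨e1 ▸ hx.1, e2 ▸ hx.2⟩
    exact (hy ∅).2 (h y fun w => (fm.fac _ (ha _) _ (gd w)
      (Finset.inf_le (Finset.mem_singleton_self w)) y 0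
        ((hy {w}).1.trans (map_zero _).symm)).trans (map_zero _))
  obtain ⟨s, hs⟩ := key
  refine ⟨s, fun p hp => ?_⟩
  have hp' : p ∈ a s := (Finset.le_inf (a := Ideal.span {p}) fun v hv =>
    (Ideal.span_singleton_le_iff_mem _).2 ((mem_torsionOf_iff _ _).2 (hp v hv)))
      (Ideal.mem_span_singleton_self p)
  have hc := fm.inf _ (ha s) _ hb
  obtain ⟨f, hf⟩ := fm.sur _ hc (Ideal.Quotient.mk _ p)
  have e1 := hs f ((fm.fac _ hc _ (ha s) inf_le_left f p hf).trans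
    (Ideal.Quotient.eq_zero_iff_mem.2 hp'))
  rwa [fm.fac _ hc _ hb inf_le_right f p hf, Ideal.Quotient.eq_zero_iff_mem] at e1

end

/-- **OUTG**, abstract form: the symbols `v` are centred at the point -/
theorem out94 {O : Type} [CommRing O] [IsDomain O] [IsDiscreteValuationRing O] [Coef O] {ϖ : O}
    {ρ : GQ →* M2 O} {σ : Type} [Fintype σ] {v : σ → Tg O} {𝔊 : Set (Ideal (Tg O))}
    {m : Ideal (Tg O)} (fm : Fm 𝔊 (Ph v) m) (ht : ⊤ ∈ 𝔊) (hp : ∀ j, pk ϖ ρ j ∈ 𝔊)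
    (hv : ∀ s, ev0 ρ (v s) = 0) {W : Type} [AddCommGroup W] [Module (Tg O) W] (gd : Gd 𝔊 W)
    (hA : ∀ f, (∀ w, Ph v (torsionOf (Tg O) W w) f = 0) → constantCoeff f = 0) (j : ℕ) :
    ∃ s : Finset W, ∀ p : Tg O, (∀ w ∈ s, p • w = 0) → ϖ ^ j ∣ ev0 ρ p := by
  haveI := P022D.As.base O σ
  have hev : ∀ f, Ph v (pk ϖ ρ j) f = Ideal.Quotient.mk _ (cc (constantCoeff f)) := fun f => by
    have e : (fun s => Ideal.Quotient.mk (pk ϖ ρ j) (v s)) = fun _ => 0 :=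
      funext fun s => Ideal.Quotient.eq_zero_iff_mem.2 (by
        change ev0 ρ _ ∈ Ideal.span _
        rw [hv]
        exact zero_mem _)
    rw [Ph, e, P022D.R.evl_zero]
    rfl
  obtain ⟨s, hs⟩ := fin_of fm ht gd (hp j) fun f hf => by
    rw [hev, hA f hf]
    exact (congrArg _ (map_zero MvPolynomial.C)).trans (map_zero _)
  refine ⟨s, fun p h => ?_⟩
  have e2 : ev0 ρ p ∈ Ideal.span {ϖ ^ (j + 1)} := hs p h
  exact (pow_dvd_pow ϖ (Nat.le_succ j)).trans (Ideal.mem_span_singleton.1 e2)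

end Vale.Agent.P022S.Mod
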