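import Vale.Agent.P022S.Mod.Lv
import Vale.Agent.P022S.Rows

/-!
# P022S: pseudo objects and good ideals
-/

set_option linter.all false

open IsLocalRing Filter MvPowerSeries NumberField

noncomputable section

namespace Vale.Agent.P022S.Mp

open Vale.Agent.P022 Vale.Agent.P022S.R Vale.Agent.P022S.Loc
open Vale.Agent.P022S.Mod (Fs GS Lv A0 mem_A0 vS lv_of mT_of vS_ev wd_append wd_one wd_mod tq dq
  gw_tf mem_N prod_filter)
open Vale.Agent.P022G (Hm)
open Vale.Agent.P022G.Mod (Fm Gd Kr Lm Ph Hq ph_hm ph_eq ph_res hm_ext mem_Kr cc_mem)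
open Vale.Agent.P022G.Word (wd)
open Vale.Agent.P022E.As (Tg cc tt dd yy mT ev0)
open Vale.Agent.P027M.S (Inert mx)
open Vale.Agent.P022D.Core (PS io y1 Coef)
open Vale.Agent.P022D.PA (Base)
open Vale.Agent.P022D.Sel (M2)
open Vale.Agent.P022E.Loc (Pl)
open Vale.Agent.P022E.GW (Ov Gn)
open Ideal (torsionOf mem_torsionOf_iff)

theorem wd_erase {G : Type} [Group G] {m : ℕ} {γ : Fin m → G} {i : Fin m} (h : γ i = 1)
    (s : Finset (Fin m)) : wd γ s = wd γ (s.erase i) := by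
  have e : (s.erase i).sort (· ≤ ·) = (s.sort (· ≤ ·)).filter fun a => a ≠ i := by
    refine Eq.trans ?_ ((List.toFinset_sort (· ≤ ·) ((Finset.sort_nodup _ _).filter _)).2
      ((Finset.pairwise_sort _ _).filter _))
    congr 1
    ext j
    simp only [List.mem_toFinset, List.mem_filter, Finset.mem_sort, Finset.mem_erase,
      decide_eq_true_eq]
    exact and_comm
  rw [wd, wd, e]
  exact prod_filter (· ≠ i) γ (fun a c => by rw [not_not.1 c, h]) _

theorem wd_ins {G : Type} [Group G] (N : Subgroup G) [N.Normal] {m : ℕ} {γ : Fin m → G} {i : Fin m}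
    (h : γ i ∈ N) (s : Finset (Fin m)) : (wd γ (s.erase i))⁻¹ * wd γ (insert i s) ∈ N := by
  have k := wd_mod N (γ := γ) (γ' := Function.update γ i 1) fun j => by
    by_cases c : j = i
    · rw [c, Function.update_self, mul_one]; exact N.inv_mem h
    · rw [Function.update_of_ne c, inv_mul_cancel]; exact N.one_mem
  have := N.mul_mem (k (s.erase i)) (N.inv_mem (k (insert i s)))
  rwa [wd_erase (γ := Function.update γ i 1) (Function.update_self ..) (insert i s), Finset.erase_insert_eq_erase, mul_inv_rev,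
    inv_inv, mul_assoc, mul_inv_cancel_left] at this

variable {O F : Type} [CommRing O] [IsDomain O] [IsDiscreteValuationRing O] [Coef O] [Field F]
  [CharP F 2]

/-- evaluations which factor are local -/
theorem lv_loc {ϖ : O} {L : Pl O} {T : Finset ℕ} {σ σ₀ : Type} [Fintype σ] [Fintype σ₀] {r : ℕ}
    [Base (PS O σ)] [Base (PS O σ₀)] {q : ℕ → Fin r → ℕ} {v : ℕ → σ → Tg O} {v₀ : σ₀ → Tg O}
    {jr : PS O σ →+* PS O σ₀} {ey : Fin r → σ} (H : Lv ϖ L T q v v₀ jr ey)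
    (hv : ∀ s, v₀ s ∈ mT L.r) (z : PS O σ) (hz : z ∈ maximalIdeal (PS O σ)) :
    jr z ∈ maximalIdeal (PS O σ₀) := by
  obtain ⟨t, ht⟩ := Ideal.Quotient.mk_surjective (Ph (v 0) (mT L.r) z)
  have h1 := ph_res (pow_one (mT L.r)).le (H.mem 0) ht.symm
  rw [H.base 0 _ (H.fs.gmT _ _)] at ht
  have h2 := ph_res (pow_one (mT L.r)).le hv ht.symm
  rw [sup_idem] at h1 h2
  rw [mem_maximalIdeal, mem_nonunits_iff, MvPowerSeries.isUnit_iff_constantCoeff] at hz ⊢
  have h3 := add_mem (sub_mem h1 h2) (cc_mem.2 hz)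
  exact cc_mem.1 (by simpa using h3)

/-- the facts on pseudo objects -/
structure Fc (ϖ : O) (S : Dat O F) (L : Pl O) : Prop where
  fs : Fs ϖ L S.T
  ok : OkG L S
  gpw : ∀ (Q : Finset ℕ) (r : ℕ) (a : Ideal (Tg O)), a ≠ ⊤ → Mod.Gs ϖ L S.T Q r a → Gp S L Q r a
  ker : ∀ (Q : Finset ℕ) (r : ℕ) (B : Type) [CommRing B] (Z : PO S B) (u : Tg O →+* B), Z.Std u →
    Z.Cl L Q → (∀ i, Z.π (u (yy i)) = 0) → (∀ i, r ≤ i → u (yy i) = 0) →
    Mod.Gs ϖ L S.T Q r (RingHom.ker u)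

theorem fs_of {ϖ : O} {S : Dat O F} {L : Pl O} {X : Finset ℕ} {as : ℕ} (hϖ : Irreducible ϖ)
    (hC : Cx S L X as) : Fs ϖ L S.T := by
  have e : ∀ g, (L.r g).map S.red = 1 := fun g => by rw [hC.ok.lift g, mx, hC.rb1]; rfl
  refine ⟨hϖ, fun g => (hC.ok.ker _).1 ?_, fun g => (hC.ok.ker _).1 ?_, hC.ok.cont,
    fun l a b => hC.unr l a (Or.inl b)⟩
  · rw [AddMonoidHom.map_trace, e, Matrix.trace_one, Fintype.card_fin]
    exact CharP.cast_eq_zero F 2
  · rw [map_sub, map_one, RingHom.map_det, RingHom.mapMatrix_apply, e, Matrix.det_one, sub_self]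

theorem fc_of (h2 : GPW) (h3 : GPO) :
    All fun O F _ _ _ _ _ _ _ ϖ S L X as β τ ι' _ _ _ K n G => Fc ϖ S L := by
  intro O F _ _ _ _ _ _ _ ϖ S L X as β τ ι' _ _ _ K n G hϖ hC hK hK'
  exact ⟨fs_of hϖ hC, hC.ok, h2 O F ϖ S L X as β τ ι' K n G hϖ hC hK hK',
    fun Q r B _ Z u a b c d =>
      ((h3 O F ϖ S L X as β τ ι' K n G hϖ hC hK hK').1 Q r B Z u a b c d).2⟩

variable {ϖ : O} {S : Dat O F} {L : Pl O}

theorem val {B : Type} [CommRing B] {Z : PO S B} {u : Tg O →+* B} (h : Z.Std u) {m : ℕ}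
    (rc : Fin m → M2 O) (γ : Fin m → GQ) (s : Sy m) : u (vT rc γ s) = Z.val rc γ s := by
  rcases s with s | s
  · exact (map_sub u _ _).trans (congrArg₂ _ (h.t _) (h.c _))
  · exact (map_sub u _ _).trans (congrArg₂ _ (h.d _) (h.c _))

theorem wm_r {m : ℕ} (γ : Fin m → GQ) (s : Finset (Fin m)) :
    wm (fun i => L.r (γ i)) s = L.r (wd γ s) := by
  rw [wm, wd, map_list_prod, List.map_map]
  rfl

theorem vT_eq {m : ℕ} (c γ : Fin m → GQ) (s : Sy m) :
    vT (fun i => L.r (c i)) γ s = vS L c γ s := by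
  rcases s with s | s
  · exact congrArg (fun M : M2 O => tt (wd γ s) - cc M.trace) (wm_r c s)
  · rfl

variable {κ : Type} {n : ℕ} {gk : κ → GQ} (G : Gs S L gk n)

/-- the values of the variables of level zero -/
abbrev vA : Sy n → Tg O := vT G.rc G.γ

theorem rcr_eq (r : ℕ) : G.rcr r = fun i => L.r (Fin.append G.γ (fun _ : Fin r => 1) i) := by
  funext i
  induction i using Fin.addCases with
  | left i => rw [Gs.rcr, Fin.append_left, Fin.append_left]; rfl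
  | right i => rw [Gs.rcr, Fin.append_right, Fin.append_right, map_one]

theorem vA_mem (s : Sy n) : vA G s ∈ mT L.r := mT_of ((congrArg _ (vT_eq _ _ s)).trans (vS_ev _ s))

variable (H : Fc ϖ S L)
include H

theorem Fc.fm0 : Fm (GS ϖ L S.T ∅ 0) (Ph (vA G)) (mT L.r) :=
  H.fs.fm G.gen1 _ (vA_mem G) (fun s => ⟨Sum.inl s, _, rfl⟩) (fun i => ⟨Sum.inr i, _, rfl⟩)
    fun i hi => absurd hi (Nat.not_lt_zero i)

/-- **the variables of all levels** -/
theorem Fc.lv {r : ℕ} [Base (PP O n r)] [Base (PS O (Sy n))] {q : ℕ → Fin r → ℕ}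
    {τ' : ℕ → Fin r → GQ} (hq : ∀ m i, q m i ∉ S.T ∧ ∃ P, Ov (q m i) P ∧ Gn (q m i) P (τ' m i))
    {jr : PP O n r →+* PS O (Sy n)} (hj : Hm C (G.jv r) jr) :
    Lv ϖ L S.T q (fun m => G.vP (τ' m)) (vA G) jr Sum.inr := by
  refine lv_of H.fs G.γ G.gen1 (fun m => G.gen r (q m) (τ' m) (hq m)) (fun m i => ?_) Sum.inl
    Sum.inr id (fun z => z.rec (fun s => Or.inl ⟨s, rfl⟩) fun i => Or.inr ⟨i, rfl⟩)
    (fun z => ⟨z, rfl⟩) (fun m s => ?_) (fun m i => rfl) (fun s => vT_eq _ _ s) hj.c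
    (fun s => (hj.x _).trans ?_) (fun i => (hj.x _).trans ?_) (fun i => (hj.x _).trans ?_)
    fun i => hj.x _
  · obtain ⟨a, P, b, c⟩ := hq m i
    exact ⟨_, P, b.1, a, b.2.1, b.2.2, c.1⟩
  · change vT (G.rcr r) _ s = _
    rw [rcr_eq, vT_eq]
  · change tS G.rc id _ - C (wm (G.rcr r) s).trace = _
    rw [rcr_eq, wm_r, wd_append, ← wm_r, tS]
    exact add_sub_cancel_left _ _
  · change Fin.append (dS G.rc id) (fun _ => 1) (Fin.castAdd r i) -
      C (G.rcr r (Fin.castAdd r i)).det = _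
    rw [Gs.rcr, Fin.append_left, Fin.append_left, dS]
    exact add_sub_cancel_left _ _
  · change Fin.append (dS G.rc id) (fun _ => 1) (Fin.natAdd n i) -
      C (G.rcr r (Fin.natAdd n i)).det = _
    rw [Gs.rcr, Fin.append_right, Fin.append_right, Matrix.det_one, map_one, sub_self]

theorem Fc.hm {a : Ideal (Tg O)} (ha : Mod.Gs ϖ L S.T ∅ 0 a)
    {Z : PO S (Tg O ⧸ a)} (a1 : Z.Std (Ideal.Quotient.mk a)) :
    Hm Z.ι (Z.val G.rc G.γ) (Ph (vA G) a) := by
  obtain ⟨k, hk⟩ := H.fs.nil ha.gw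
  have k := ph_hm hk (vA_mem G)
  exact ⟨fun o => (k.c o).trans (a1.c o), fun s => (k.x s).trans (val a1 _ _ s)⟩

/-- every evaluation at a pseudo object factors through the evaluation modulo the kernel -/
theorem Fc.thru {B : Type} [CommRing B] {Z : PO S B} {u : Tg O →+* B} (h : Z.Std u)
    (ha : Mod.Gs ϖ L S.T ∅ 0 (RingHom.ker u)) {ψ : PS O (Sy n) →+* B}
    (k : Hm Z.ι (Z.val G.rc G.γ) ψ) {f : PS O (Sy n)} {t : Tg O}
    (e : Ph (vA G) (RingHom.ker u) f = Ideal.Quotient.mk _ t) : ψ f = u t := by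
  obtain ⟨m, hn⟩ := H.fs.nil ha.gw
  have k0 := ph_hm hn (vA_mem G)
  haveI := Z.fin
  obtain ⟨n', hn'⟩ := Kd.nil Z.π Z.loc
  have e1 : ψ = (RingHom.kerLift u).comp (Ph (vA G) (RingHom.ker u)) :=
    hm_ext k ⟨fun o => (congrArg _ (k0.c o)).trans ((RingHom.kerLift_mk u _).trans (h.c o)),
      fun s => (congrArg _ (k0.x s)).trans ((RingHom.kerLift_mk u _).trans (val h _ _ s))⟩ hn'
      fun s => by
        rcases s with s | s
        · refine (map_sub _ _ _).trans ?_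
          rw [Z.rt, Z.alg, zero_sub, neg_eq_zero, H.ok.ker]
          exact (congrArg Matrix.trace (wm_r (L := L) G.γ s)).symm ▸ H.fs.tr _
        · refine (map_sub _ _ _).trans ?_
          rw [Z.rd, Z.alg, ← map_one S.red, ← map_sub, H.ok.ker]
          exact H.fs.det _
  rw [e1, RingHom.comp_apply, e, RingHom.kerLift_mk]

theorem Fc.an_eq {Y : Type} [AddCommGroup Y] [Module (Tg O) Y] (hY : Gd (GS ϖ L S.T ∅ 0) Y) :
    G.An Y = A0 (vA G) Y := by
  ext f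
  rw [mem_A0]
  constructor
  · intro hf w
    by_cases e : torsionOf (Tg O) Y w = ⊤
    · haveI : Subsingleton (Tg O ⧸ torsionOf (Tg O) Y w) := e ▸ inferInstance
      exact Subsingleton.elim _ _
    · obtain ⟨Z, a1, -⟩ := H.gpw _ _ _ e (hY w)
      exact hf _ _ _ _ ⟨w, Z, _, a1, Ideal.mk_ker, rfl, rfl⟩ (H.hm G (hY w) a1)
  · rintro h B _ j v ψ ⟨w, Z, u, a1, a2, rfl, rfl⟩ k
    have := h w
    rw [← a2] at this
    exact (H.thru G a1 (a2 ▸ hY w) k (t := 0) this).trans (map_zero u)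

theorem Fc.aP_eq : G.aP = Kr (GS ϖ L S.T ∅ 0) (Ph (vA G)) := by
  ext f
  rw [mem_Kr]
  constructor
  · intro hf a ha
    by_cases e : a = ⊤
    · haveI : Subsingleton (Tg O ⧸ a) := e ▸ inferInstance
      exact Subsingleton.elim _ _
    · obtain ⟨Z, a1, a2, -⟩ := H.gpw _ _ _ e ha
      exact hf _ _ _ _ ⟨Z, a2, rfl, rfl⟩ (H.hm G ha a1)
  · rintro h B _ j v ψ ⟨Z, a1, rfl, rfl⟩ k
    let u : Tg O →+* B := MvPolynomial.eval₂Hom Z.ι
      (Sum.elim Z.t (Sum.elim (fun g => (Z.d g : B)) fun _ => 0))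
    have s : Z.Std u := ⟨fun o => MvPolynomial.eval₂Hom_C _ _ o,
      fun g => MvPolynomial.eval₂Hom_X' _ _ _, fun g => MvPolynomial.eval₂Hom_X' _ _ _⟩
    have y : ∀ i, u (yy i) = 0 := fun i => MvPolynomial.eval₂Hom_X' _ _ _
    have g := H.ker ∅ 0 B Z u s a1 (fun i => by rw [y, map_zero]) fun i _ => y i
    exact (H.thru G s g k (t := 0) (h _ g)).trans (map_zero u)

/-- universal traces are lifts -/
theorem Fc.tu {tu : GQ → PS O (Sy n)} (h : G.Tu tu) {lam : Tg O →+* PS O (Sy n)}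
    (l : Lm (GS ϖ L S.T ∅ 0) (Ph (vA G)) lam) (g : GQ) : tu g - lam (tt g) ∈ G.aP := by
  rw [H.aP_eq G, mem_Kr]
  intro a ha
  by_cases e : a = ⊤
  · haveI : Subsingleton (Tg O ⧸ a) := e ▸ inferInstance
    exact Subsingleton.elim _ _
  · obtain ⟨Z, a1, a2, -⟩ := H.gpw _ _ _ e ha
    rw [map_sub, l a ha, h _ Z _ a2 (H.hm G ha a1), a1.t, sub_self]

end Vale.Agent.P022S.Mp
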