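import Vale.Agent.P022S.Mod.Dp
import Vale.Agent.P022S.Mod.Gw
import Vale.Agent.P022D.Fm.OpA

/-!
# P022S: the denominator, for arbitrary Frobenius elements
-/

set_option linter.all false

open IsLocalRing Filter NumberField

noncomputable section

namespace Vale.Agent.P022S.Mod

open Vale.Agent.P022 Vale.Agent.P022G.Mod
open Vale.Agent.P022E.As (Tg cc tt dd yy Dq mT)
open Vale.Agent.P022D.PA (Base Cv)
open Vale.Agent.P022D.Core (Coef)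
open Vale.Agent.P022E.Loc (Pl)

section
variable {O P : Type} [CommRing O] [CommRing P] {𝔊 : Set (Ideal (Tg O))}
  {Φ : ∀ a : Ideal (Tg O), P →+* Tg O ⧸ a} {m : Ideal (Tg O)} {lam : Tg O →+* P}

/-- **the denominator** -/
theorem dp1 [Base P] (h : Fm 𝔊 Φ m) (l : Lm 𝔊 Φ lam)
    (tm : ∀ a ∈ 𝔊, ∀ g h, (tt g * tt h - (tt (g * h) + dd h * tt (g * h⁻¹)) : Tg O) ∈ a)
    (ht : ∀ g, tt g ∈ m) (hd : ∀ g, dd g - 1 ∈ m) {P' : Type} [CommRing P'] [Base P']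
    {jr : P' →+* P} (hj : ∀ z ∈ maximalIdeal P', jr z ∈ maximalIdeal P) {lam' : ℕ → Tg O →+* P'}
    {E : Ideal P} (hE : E.IsPrime) (e1 : Kr 𝔊 Φ ≤ E) (e2 : (2 : P) ∈ E)
    (e3 : ∀ n t, jr (lam' n t) - lam t ∈ E) {r : ℕ} {s : Fin r → GQ}
    (hs : ∀ i, lam (tt (s i)) ∉ E) {q : ℕ → Fin r → ℕ} (hq : ∀ n i, Odd (q n i))
    {φ : ℕ → Fin r → GQ}
    (hφ : ∀ n i, ∃ k, Odd k ∧ lam (tt (s i ^ k)) - lam (tt (φ n i)) ∈ E ⊔ maximalIdeal P ^ n)
    {U : Filter ℕ} [U.NeBot] (hU : U ≤ atTop) {c : ℕ} {d : P'} (hc : Cv U (DD lam' q φ c) d) :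
    jr d ∉ E := fun k0 => by
  have t0 : (∏ i, lam (tt (s i)) ^ 2) ^ c ∉ E := fun k => by
    by_cases c0 : c = 0
    · rw [c0, pow_zero] at k
      exact hE.ne_top ((Ideal.eq_top_iff_one _).2 k)
    obtain ⟨i, -, hi⟩ := (Ideal.IsPrime.prod_mem_iff (hp := hE)).1 (hE.mem_of_pow_mem _ k)
    exact hs i (hE.mem_of_pow_mem _ hi)
  refine t0 (P022D.PA.mem_of_sup E _ fun j => ?_)
  obtain ⟨n, n1, n2⟩ := ((P022D.As.EA.cv_map jr hj hc j).and (hU (eventually_ge_atTop j))).exists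
  have h2 : (2 : Tg O) ∈ m := (l.max h _).1 (by
    rw [map_ofNat]; exact le_maximalIdeal hE.ne_top e2)
  let π := Ideal.Quotient.mk (E ⊔ maximalIdeal P ^ j)
  have z : ∀ x ∈ E, π x = 0 := fun x hx =>
    Ideal.Quotient.eq_zero_iff_mem.2 (Ideal.mem_sup_left hx)
  have two : (2 : P ⧸ (E ⊔ maximalIdeal P ^ j)) = 0 := (map_ofNat π 2).symm.trans (z _ e2)
  have k1 : ∀ i, ∃ w : P, IsUnit w ∧ π (lam (tt (φ n i))) = π (w * lam (tt (s i))) := fun i => by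
    obtain ⟨_, ⟨k, rfl⟩, hk⟩ := hφ n i
    obtain ⟨w, w1, w2⟩ := tr_odd h2 ht hd (s i) k
    refine ⟨lam w, ?_, ?_⟩
    · have := (l.max h _).2 w1
      rw [map_sub, map_one] at this
      by_contra c'
      exact (maximalIdeal.isMaximal P).ne_top ((Ideal.eq_top_iff_one _).2 (by
        simpa using sub_mem (show lam w ∈ maximalIdeal P from c') this))
    · have a1 := hk
      have a2 := z _ (e1 (lam_Kr l fun a ha => w2 a (tm a ha)))
      rw [map_sub, map_sub, sub_eq_zero, map_mul] at a2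
      rw [← a2]
      have le : E ⊔ maximalIdeal P ^ n ≤ E ⊔ maximalIdeal P ^ j :=
        sup_le_sup_left (Ideal.pow_le_pow_right n2) _
      exact (Ideal.Quotient.eq.2 (le a1)).symm
  choose w w1 w2 using k1
  have k2 : π (lam (Dq (q n) (φ n) ^ c)) =
      π ((∏ i, w i ^ 2) ^ c * (∏ i, lam (tt (s i)) ^ 2) ^ c) := by
    rw [← mul_pow, ← Finset.prod_mul_distrib, Vale.Agent.P022D.As.Dq]
    simp only [map_pow, map_prod]
    refine congrArg (· ^ c) (Finset.prod_congr rfl fun i _ => ?_)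
    obtain ⟨k, hk⟩ := hq n i
    have q1 : ((q n i : ℕ) : P ⧸ (E ⊔ maximalIdeal P ^ j)) = 1 := by
      rw [hk]; push_cast; rw [two]; ring
    simp only [map_sub, map_mul, map_pow, map_add, map_natCast, map_one]
    rw [q1, one_add_one_eq_two, two, w2, map_mul]
    ring
  have k3 : π (lam (Dq (q n) (φ n) ^ c)) = 0 := by
    have b1 := z _ (e3 n (Dq (q n) (φ n) ^ c))
    have b2 : π _ = 0 := Ideal.Quotient.eq_zero_iff_mem.2 (Ideal.mem_sup_right n1)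
    rw [map_sub, sub_eq_zero] at b1 b2
    rw [← b1]
    exact b2.trans (z _ k0)
  rw [k2, Ideal.Quotient.eq_zero_iff_mem] at k3
  exact (Ideal.unit_mul_mem_iff_mem _
    ((IsUnit.prod_univ_iff.2 fun i => (w1 i).pow 2).pow c)).1 k3

end

variable {O P : Type} [CommRing O] [CommRing P] {ϖ : O} {L : Pl O} {T : Finset ℕ}

/-- two Frobenius elements have the same trace at level zero -/
theorem Gs.frob {Q : Finset ℕ} {r : ℕ} {a : Ideal (Tg O)} (h : Gs ϖ L T Q r a) {q : ℕ}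
    (hq : q.Prime) (h1 : q ∉ T) (h2 : q ∉ Q) {φ φ' : GQ} (k : IsFrob q φ) (k' : IsFrob q φ') :
    (tt φ - tt φ' : Tg O) ∈ a ∧ (dd φ - dd φ' : Tg O) ∈ a := by
  obtain ⟨g, s, ⟨Pr, b1, b2, b3⟩, e⟩ := P022D.Fm.OpP.frob_cj hq k k'
  have hs := h.N_unr q hq h1 h2 Pr b1 b2 s b3
  have T' := gw_tf h.gw
  constructor
  · refine Ideal.Quotient.eq.1 (?_ : tq a φ = tq a φ')
    rw [← hs.1 φ', T'.comm, ← e, T'.comm, ← mul_assoc, inv_mul_cancel, one_mul]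
  · refine Ideal.Quotient.eq.1 (?_ : (dq h.gw φ : Tg O ⧸ a) = dq h.gw φ')
    have := congrArg (dq h.gw) e
    rw [map_mul, map_mul, map_mul, hs.2, one_mul, map_inv, mul_comm (dq h.gw g),
      mul_inv_cancel_right] at this
    rw [this]

variable [IsDomain O] [IsDiscreteValuationRing O] [Coef O] [Base P]
  {Φ : ∀ a : Ideal (Tg O), P →+* Tg O ⧸ a} {lam : Tg O →+* P}

/-- the open normal subgroups of level zero -/
theorem Un_GS (h : Fm (GS ϖ L T ∅ 0) Φ (mT L.r)) (l : Lm (GS ϖ L T ∅ 0) Φ lam) {J : Ideal P}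
    (hJ : Kr (GS ϖ L T ∅ 0) Φ ≤ J) (n : ℕ) :
    IsOpen (Un lam (J ⊔ maximalIdeal P ^ n) : Set GQ) ∧ (Un lam (J ⊔ maximalIdeal P ^ n)).Normal :=
  ⟨Un_open h l (fun a ha => ha.gw.opn) hJ n,
    Un_normal l (fun a ha => ha.gw.tc) (hJ.trans le_sup_left)⟩

/-- **the denominator at auxiliary primes** -/
theorem Fs.dp (H : Fs ϖ L T) (h : Fm (GS ϖ L T ∅ 0) Φ (mT L.r)) (l : Lm (GS ϖ L T ∅ 0) Φ lam)
    {P' : Type} [CommRing P'] [Base P']
    {jr : P' →+* P} (hj : ∀ z ∈ maximalIdeal P', jr z ∈ maximalIdeal P) {lam' : ℕ → Tg O →+* P'}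
    {E : Ideal P} (hE : E.IsPrime) (e1 : Kr (GS ϖ L T ∅ 0) Φ ≤ E) (e2 : (2 : P) ∈ E)
    (e3 : ∀ n t, jr (lam' n t) - lam t ∈ E) {r : ℕ} {s : Fin r → GQ}
    (hs : ∀ i, lam (tt (s i)) ∉ E) {q : ℕ → Fin r → ℕ} (hq : ∀ n i, (q n i).Prime ∧ q n i ∉ T)
    (h2 : 2 ∈ T) {φ : ℕ → Fin r → GQ} (hφ : ∀ n i, IsFrob (q n i) (φ n i))
    (hA : ∀ n i, ∃ (φ' : GQ) (k : ℕ), IsFrob (q n i) φ' ∧ Odd k ∧
      φ'⁻¹ * s i ^ k ∈ Un lam (E ⊔ maximalIdeal P ^ n))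
    {U : Filter ℕ} [U.NeBot] (hU : U ≤ atTop) {c : ℕ} {d : P'} (hc : Cv U (DD lam' q φ c) d) :
    jr d ∉ E := by
  refine dp1 h l (fun a ha => ha.gw.tm) H.t_mem
    (fun g => by simpa using neg_mem (H.d_mem g)) hj hE e1 e2 e3 hs
    (fun n i => (hq n i).1.odd_of_ne_two fun e => (hq n i).2 (e ▸ h2)) (fun n i => ?_) hU hc
  obtain ⟨φ', k, a1, a2, a3⟩ := hA n i
  have b1 := a3 φ'
  rw [mul_inv_cancel_left] at b1
  have b2 : lam (tt φ' - tt (φ n i)) ∈ E := e1 (lam_Kr l fun a ha =>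
    (Gs.frob ha (hq n i).1 (hq n i).2 (Finset.notMem_empty _) a1 (hφ n i)).1)
  rw [map_sub] at b2
  exact ⟨k, a2, by simpa using add_mem b1 (Ideal.mem_sup_left b2)⟩

end Vale.Agent.P022S.Mod
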