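import Vale.Agent.P022S.Mod.Dp2

/-!
# P022S: the denominator, when the traces of the Frobenius elements stay away from a prime
-/

set_option linter.all false

open IsLocalRing Filter NumberField

noncomputable section

namespace Vale.Agent.P022S.Mod

open Vale.Agent.P022 Vale.Agent.P022G.Mod
open Vale.Agent.P022E.As (Tg cc tt dd yy Dq mT)
open Vale.Agent.P022D.PA (Base Cv)
open Vale.Agent.P022E.Loc (Pl)

variable {O P : Type} [CommRing O] [CommRing P]

/-- **the denominator** -/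
theorem dpV [Base P] {lam : Tg O →+* P} {P' : Type} [CommRing P'] [Base P']
    {jr : P' →+* P} (hj : ∀ z ∈ maximalIdeal P', jr z ∈ maximalIdeal P) {lam' : ℕ → Tg O →+* P'}
    {E : Ideal P} (hE : E.IsPrime) (e2 : (2 : P) ∈ E)
    (e3 : ∀ n t, jr (lam' n t) - lam t ∈ E) {r : ℕ} {q : ℕ → Fin r → ℕ} (hq : ∀ n i, Odd (q n i))
    {φ : ℕ → Fin r → GQ} {e : ℕ} (hφ : ∀ n i, lam (tt (φ n i)) ∉ E ⊔ maximalIdeal P ^ e)
    {U : Ultrafilter ℕ} {c : ℕ} {d : P'} (hc : Cv (U : Filter ℕ) (DD lam' q φ c) d) :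
    jr d ∉ E := fun k0 => by
  choose x hx using fun i => P022D.PA.lim P U fun n => lam (tt (φ n i))
  have hs : ∀ i, x i ∉ E := fun i k => by
    obtain ⟨n, hn⟩ := (hx i e).exists
    exact hφ n i (by simpa using add_mem (Ideal.mem_sup_right (S := E) hn) (Ideal.mem_sup_left k))
  have t0 : (∏ i, x i ^ 2) ^ c ∉ E := fun k => by
    obtain ⟨i, -, hi⟩ := (Ideal.IsPrime.prod_mem_iff (hp := hE)).1 (hE.mem_of_pow_mem _ k)
    exact hs i (hE.mem_of_pow_mem _ hi)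
  refine t0 (P022D.PA.mem_of_sup E _ fun j => ?_)
  obtain ⟨n, n1, n2⟩ := ((P022D.As.EA.cv_map jr hj hc j).and
    (eventually_all.2 fun i => hx i j)).exists
  let π := Ideal.Quotient.mk (E ⊔ maximalIdeal P ^ j)
  have z : ∀ x ∈ E, π x = 0 := fun x hx =>
    Ideal.Quotient.eq_zero_iff_mem.2 (Ideal.mem_sup_left hx)
  have two : (2 : P ⧸ (E ⊔ maximalIdeal P ^ j)) = 0 := (map_ofNat π 2).symm.trans (z _ e2)
  have w2 : ∀ i, π (lam (tt (φ n i))) = π (x i) := fun i =>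
    Ideal.Quotient.eq.2 (Ideal.mem_sup_right (n2 i))
  have k2 : π (lam (Dq (q n) (φ n) ^ c)) = π ((∏ i, x i ^ 2) ^ c) := by
    rw [Vale.Agent.P022D.As.Dq]
    simp only [map_pow, map_prod]
    refine congrArg (· ^ c) (Finset.prod_congr rfl fun i _ => ?_)
    obtain ⟨k, hk⟩ := hq n i
    have q1 : ((q n i : ℕ) : P ⧸ (E ⊔ maximalIdeal P ^ j)) = 1 := by
      rw [hk]; push_cast; rw [two]; ring
    simp only [map_sub, map_mul, map_pow, map_add, map_natCast, map_one]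
    rw [q1, one_add_one_eq_two, two, w2]
    ring
  have b1 := z _ (e3 n (Dq (q n) (φ n) ^ c))
  have b2 : π _ = 0 := Ideal.Quotient.eq_zero_iff_mem.2 (Ideal.mem_sup_right n1)
  rw [map_sub, sub_eq_zero] at b1 b2
  rw [← Ideal.Quotient.eq_zero_iff_mem, ← k2, ← b1]
  exact b2.trans (z _ k0)

/-- the hypothesis does not depend on the Frobenius element -/
theorem frob_out [IsLocalRing P] {ϖ : O} {L : Pl O} {T : Finset ℕ}
    {Φ : ∀ a : Ideal (Tg O), P →+* Tg O ⧸ a} {lam : Tg O →+* P} (l : Lm (GS ϖ L T ∅ 0) Φ lam)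
    {J : Ideal P} (hJ : Kr (GS ϖ L T ∅ 0) Φ ≤ J) {q : ℕ} (hq : q.Prime) (h1 : q ∉ T) {φ φ' : GQ}
    (k : IsFrob q φ) (k' : IsFrob q φ') (h : lam (tt φ') ∉ J) : lam (tt φ) ∉ J := fun c => by
  have b : lam (tt φ' - tt φ) ∈ J := hJ (lam_Kr l fun a ha =>
    (Gs.frob ha hq h1 (Finset.notMem_empty _) k' k).1)
  rw [map_sub] at b
  exact h (by simpa using add_mem b c)

end Vale.Agent.P022S.Mod
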