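import Vale.Agent.P022S.Mod.Br
import Vale.Agent.P022S.Rw.Pkg0

/-!
# P022S: the patching data at a curve
-/

set_option linter.all false

open IsLocalRing Filter MvPowerSeries NumberField

noncomputable section

namespace Vale.Agent.P022S.Mp

open Vale.Agent.P022 Vale.Agent.P022S.R Vale.Agent.P022S.Loc
open Vale.Agent.P022S.Mod (Fs GS Lv A0 gq gd_of Dm wd_one tq dq gw_tf mem_N dpV)
open Vale.Agent.P022G (Hm)
open Vale.Agent.P022G.Mod (Fm Gd Ac Kr Lm Ph Hq uu cc_mem ann_pi)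
open Vale.Agent.P022G.Word (wd)
open Vale.Agent.P022E.As (Tg cc tt dd yy mT ev0 Dia Lv2 Sb2)
open Vale.Agent.P027M.S (Inert mx)
open Vale.Agent.P022D.Core (PS io y1 Coef)
open Vale.Agent.P022D.PA (Base Cv lim)
open Vale.Agent.P022D.As.EA (cv_map)
open Vale.Agent.P022D.Sel (M2)
open Vale.Agent.P022E.Loc (Pl)
open Vale.Agent.P022F.End0 (evc evt evd evy)
open Vale.Agent.P022G.Pt (Du An FD)
open Ideal (torsionOf mem_torsionOf_iff)

variable {O F : Type} [CommRing O] [IsDomain O] [IsDiscreteValuationRing O] [Coef O] [Field F]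
  [CharP F 2] {ϖ : O} {S : Dat O F} {L : Pl O} {β : Type} {τ ι' : β → Type} [Fintype β]
  [∀ b, Fintype (τ b)] {K : Kx O β τ ι' L.C} {n r s : ℕ} {V : Type}
  [CommRing V] (Y : Pc (S := S) (n := n) K r s V)

/-- the good ideals of level `m` -/
abbrev gg (ϖ : O) (m : ℕ) : Set (Ideal (Tg O)) := gq ϖ L S.T Y.q m

/-- the evaluations of level `m` -/
abbrev ph (m : ℕ) : ∀ a : Ideal (Tg O), PP O n r →+* Tg O ⧸ a := Ph (Y.G'.vP (Y.τ' m))

/-- the generators of level `m` -/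
abbrev gn (m : ℕ) : Fin (n + r) → GQ := Fin.append Y.G'.γ (Y.τ' m)

variable [Base (PP O n r)] [Base (PS O (Sy n))]

/-- the lifts of the symbols -/
structure La (ϖ : O) (lam : ℕ → Tg O →+* PP O n r) : Prop where
  fc : Fc ϖ S L
  ok : Y.Ok
  la : Mod.La ϖ L S.T Y.q (fun m => Y.G'.vP (Y.τ' m)) (vA Y.G') Y.jr Sum.inr lam

variable {Y}

theorem ex_la (H : Fc ϖ S L) (hY : Y.Ok) : ∃ lam, La Y ϖ lam :=
  (H.lv Y.G' hY.gn hY.jr).ex.imp fun _ h => ⟨H, hY, h⟩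

variable {lam : ℕ → Tg O →+* PP O n r} (A : La Y ϖ lam)
include A

theorem La.mod (m : ℕ) {N : Type} [AddCommGroup N] [Module (Tg O) N] (g : Gd (gg Y ϖ m) N) :
    ∃ _ : Module (PP O n r) N, Ac (gg Y ϖ m) (ph Y m) N := A.la.mod m g

theorem La.mod0 {N : Type} [AddCommGroup N] [Module (Tg O) N] (g : Gd (GS ϖ L S.T ∅ 0) N) :
    ∃ _ : Module (PP O n r) N, (∀ m, Ac (gg Y ϖ m) (ph Y m) N) ∧
      Module.annihilator (PP O n r) N = (Y.G'.An N).comap Y.jr := by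
  rw [A.fc.an_eq Y.G' g]
  exact A.la.mod0 g

section ent
variable {m : ℕ} {Q : Finset ℕ} {r' : ℕ} {a : Ideal (Tg O)} (ha : Mod.Gs ϖ L S.T Q r' a)
include ha

theorem La.tS (z : Finset (Fin (n + r))) :
    ph Y m a (tS (Y.G'.rcr r) Sum.inl z) = Ideal.Quotient.mk a (tt (wd (gn Y m) z)) := by
  rw [P022S.tS, map_add, (A.la.lv.hq m ha).c, (A.la.lv.hq m ha).x, RingHom.comp_apply, ← map_add]
  exact congrArg _ (add_sub_cancel _ _)

theorem La.dS (i : Fin (n + r)) :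
    ph Y m a (dS (Y.G'.rcr r) Sum.inl i) = Ideal.Quotient.mk a (dd (gn Y m i)) := by
  rw [P022S.dS, map_add, (A.la.lv.hq m ha).c, (A.la.lv.hq m ha).x, RingHom.comp_apply, ← map_add]
  exact congrArg _ (add_sub_cancel _ _)

theorem La.tau (i : Fin (n + r)) (h : ∀ g, tt (g * gn Y m i) - tt g ∈ a)
    (h' : dd (gn Y m i) - 1 ∈ a) : ∀ t ∈ tauP (Y.G'.rcr r) Sum.inl i, ph Y m a t = 0 := by
  haveI := Kd.N_normal (gw_tf ha.gw)
  rintro _ (rfl | ⟨z, rfl⟩)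
  · rw [map_sub, A.dS ha, map_one, ← map_one (Ideal.Quotient.mk a), sub_eq_zero]
    exact Ideal.Quotient.eq.2 h'
  · have := (wd_ins _ ((mem_N ha.gw).2 ⟨h, h'⟩) z).1 (wd (gn Y m) (z.erase i))
    rw [mul_inv_cancel_left] at this
    rw [map_sub, A.tS ha, A.tS ha, sub_eq_zero]
    exact this

theorem La.new (l : L.C) : ph Y m a ((Y.rd ϖ).DP l) = Ideal.Quotient.mk a (tt (L.φ l)) :=
  (A.tS ha _).trans (by rw [wd_one, gn, Fin.append_left, Y.G'.hφ])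

end ent

theorem La.unr {m : ℕ} {N : Type} [AddCommGroup N] [Module (Tg O) N] [Module (PP O n r) N]
    (c : Ac (gg Y ϖ m) (ph Y m) N) (g : Gd (gg Y ϖ m) N) (hp : ∀ w : N, (cc ϖ : Tg O) • w = 0)
    (l : L.C) (h : ∀ x (w : N), (tt (x * L.τ l) : Tg O) • w = (tt x : Tg O) • w) :
    ∀ t ∈ (Y.rd ϖ).τP l, ∀ w : N, t • w = 0 := fun t ht w => by
  have e : gn Y m (Fin.castAdd r (Y.G'.iτ l)) = L.τ l := by rw [gn, Fin.append_left, Y.G'.hτ]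
  refine ((A.la.tw.fm m).ann c g w t).2 (A.tau (g w) _ (fun x => (mem_torsionOf_iff _ _).2 (by
    rw [e, sub_smul, h, sub_self])) ?_ t ht)
  have h1 := (g w).gw.cld (L.τ l) (Or.inr (Or.inr (Or.inl ⟨l, Finset.mem_union_right _ l.2, rfl⟩)))
  have h2 := A.fc.fs.det (L.τ l)
  rw [A.fc.fs.irr.maximalIdeal_eq, Ideal.mem_span_singleton'] at h2
  obtain ⟨u, hu⟩ := h2
  have h3 : (cc u * cc ϖ : Tg O) ∈ torsionOf (Tg O) N w :=
    Ideal.mul_mem_left _ _ ((mem_torsionOf_iff _ _).2 (hp w))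
  have h4 : (cc u * cc ϖ : Tg O) = 1 - cc (L.r (L.τ l)).det := by
    rw [← map_one (MvPolynomial.C : O →+* Tg O)]
    exact (map_mul MvPolynomial.C u ϖ).symm.trans
      ((congrArg _ hu).trans (map_sub MvPolynomial.C _ _))
  rw [e]
  convert sub_mem h1 h3 using 1
  rw [h4]
  ring

theorem La.tn (m : ℕ) (i : Fin r) (a : Ideal (Tg O)) (ha : a ∈ gg Y ϖ m) :
    ph Y m a (io O _ r (Y.tn m i)) = Ideal.Quotient.mk a (tt (Y.τq m i)) := by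
  have k := A.la.lv.hq m ha
  by_cases e : a = ⊤
  · haveI : Subsingleton (Tg O ⧸ a) := e ▸ inferInstance
    exact Subsingleton.elim _ _
  obtain ⟨Z, a1, a2, -⟩ := A.fc.gpw _ _ _ e ha
  refine ((A.ok.tn m i _ Z ((ph Y m a).comp (io O _ r)) a2 ⟨fun o => ?_, fun z => ?_⟩).1).trans
    (a1.t _).symm
  · exact (congrArg (ph Y m a) (MvPowerSeries.rename_C _ o)).trans ((k.c o).trans (a1.c o))
  · exact (congrArg (ph Y m a) (MvPowerSeries.rename_X _ z)).trans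
      ((k.x _).trans (val a1 _ _ z))

/-- **the denominator avoids the surfaces** -/
theorem La.dp {tu : GQ → PS O (Sy n)} (hu : Y.G'.Tu tu) {φ : ℕ → Fin r → GQ} {e c : ℕ}
    {E : Ideal (PS O (Sy n))} (hE : E.IsPrime) (h1 : Y.G'.aP ⊔ Ideal.span {C ϖ} ≤ E)
    (hφ : ∀ m i, tu (φ m i) ∉ E ⊔ maximalIdeal (PS O (Sy n)) ^ e) {d : PP O n r}
    (hd : Cv (Y.U : Filter ℕ) (P022G.Mod.DD lam Y.q φ c) d) : Y.jr d ∉ E := by
  obtain ⟨lam₀, l, -⟩ := A.fc.fs.lam0 (A.fc.fm0 Y.G') (vA_mem Y.G')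
  have e1 : Y.G'.aP ≤ E := le_sup_left.trans h1
  refine dpV (lam := lam₀) (e := e) (lv_loc A.la.lv (vA_mem Y.G')) hE ?_
    (fun m t => e1 (A.fc.aP_eq Y.G' ▸ A.la.jrK l m t)) (fun m i => ?_) (fun m i k => hφ m i ?_) hd
  · obtain ⟨u, h2⟩ := A.la.tw.two
    rw [← map_ofNat (C : O →+* PS O (Sy n)) 2, h2, map_mul]
    exact E.mul_mem_right _ (h1 (Ideal.mem_sup_right (Ideal.mem_span_singleton_self _)))
  · obtain ⟨a, P, b, -⟩ := A.ok.gn m i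
    exact b.1.odd_of_ne_two fun e => a (by rw [e, A.fc.ok.hT]; simp)
  · simpa using add_mem (Ideal.mem_sup_left (e1 (A.fc.tu Y.G' hu l (φ m i)))) k

section fam
variable {N : ℕ → Type} [∀ m, AddCommGroup (N m)] [∀ m, Module (Tg O) (N m)]
  [∀ m, Module (PP O n r) (N m)] (c : ∀ m, Ac (gg Y ϖ m) (ph Y m) (N m))
  (dia : ∀ m, Dia (O := O) m (Y.τq m) (N m))
include c dia

/-- the hypothesis of `RGAL` -/
theorem La.gal (g : ∀ m, Gd (gg Y ϖ m) (N m)) (W : Set (Tg O)) (hW : ∀ t ∈ W, t ∈ mT L.r)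
    (hk : ∀ t ∈ W, ∀ m (w : N m), t • w = 0) (m k : ℕ) :
    ∃ a : Ideal (Tg O), Gp S L (Finset.univ.image (Y.q m)) r a ∧ (∀ t ∈ W, t ∈ a) ∧
      (∀ i, dd (Y.τq m i) - (1 + yy i) * (tt (Y.τq m i) - (1 + yy i)) ∈ a) ∧
      ∀ Ψ : PP O n r →+* Tg O ⧸ a, Hm ((Ideal.Quotient.mk a).comp MvPolynomial.C)
        (fun z => Ideal.Quotient.mk a (Y.G'.vP (Y.τ' m) z)) Ψ →
        RingHom.ker Ψ ≤ Module.annihilator (PP O n r) (Du N m) ⊔ maximalIdeal (PP O n r) ^ k := by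
  obtain ⟨a, a1, a2, a3⟩ := A.la.gal c dia (fun m i => (A.ok.gn m i).1) A.ok.ine g W hW hk m k
  refine ⟨a, A.fc.gpw _ _ _ (fun e => ?_) a1, a3⟩
  have : ev0 L.r 1 ∈ maximalIdeal O := a2 (e ▸ Submodule.mem_top : (1 : Tg O) ∈ a)
  rw [map_one] at this
  exact this isUnit_one

/-- the field `sep` of `ED3` -/
theorem La.sep {a : Fin r ⊕ Fin r → PP O n r}
    (hu : ∀ i, Cv (Y.U : Filter ℕ) (fun m => uu lam Y.τq m i) (a i)) (i : Fin r)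
    (𝔮 : Ideal (S1 O τ L n S.T r)) (hq : 𝔮.IsPrime) (h1 : An Y.U (Du N) ≤ 𝔮.comap (Y.rd ϖ).ψ)
    (h2 : 2 * (Y.rd ϖ).y i - io O _ r ((Y.rd ϖ).α i) ∈ 𝔮) : (Y.rd ϖ).ψ (a (Sum.inr i)) ∈ 𝔮 := by
  have h3 : ψ1 S L τ n r _ ∈ 𝔮 := h1 (A.la.rel c dia hu i (fun m => A.tn m i)
    (cv_map (io O _ r) (fun z hz h => hz (P022D.As.EB.io_unit h)) (A.ok.cvt i)))
  have e1 : ψ1 S L τ n r (io O _ r (Y.ta i)) = io O _ r (ψ0 S L τ n r (Y.ta i)) :=
    (MvPowerSeries.rename_rename _ _ _).trans (MvPowerSeries.rename_rename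
      (e0 r : Sy (n + r) ↪ V0 τ L n S.T r)
      (Function.Embedding.inl : V0 τ L n S.T r ↪ V0 τ L n S.T r ⊕ Fin r) (Y.ta i)).symm
  have e2 : ψ1 S L τ n r (X (Sum.inr i)) = y1 O _ i := MvPowerSeries.rename_X _ _
  simp only [map_sub, map_mul, map_add, map_one, map_ofNat] at h3
  rw [e1, e2] at h3
  have h4 := add_mem h2 h3
  change 2 * y1 O _ i - io O _ r (ψ0 S L τ n r (Y.ta i) - 2) + _ ∈ 𝔮 at h4
  rw [map_sub, map_ofNat] at h4
  have h5 : (1 + y1 O _ i) * ψ1 S L τ n r (a (Sum.inr i)) ∈ 𝔮 := by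
    rw [← neg_mem_iff]
    convert h4 using 1
    ring
  refine (hq.mem_or_mem h5).resolve_left fun h => hq.ne_top (Ideal.eq_top_of_isUnit_mem _ h ?_)
  rw [MvPowerSeries.isUnit_iff_constantCoeff, map_add, map_one, y1, MvPowerSeries.constantCoeff_X,
    add_zero]
  exact isUnit_one

end fam

omit A in
variable (Y) in
/-- the row `RGAL` at the curve -/
def Rg (ϖ : O) (X : Finset ℕ) : Prop :=
  letI : Algebra (S0 O τ L n S.T r) (S1 O τ L n S.T r) := (io O _ r).toAlgebra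
  ∀ (N : ℕ → Type) [∀ m, AddCommGroup (N m)]
    [∀ m, Module (PP O n r) (N m)] (W : Ideal (Tg O) → Prop),
    (∀ m k : ℕ, ∃ a : Ideal (Tg O), Gp S L (Finset.univ.image (Y.q m)) r a ∧ W a ∧
      (∀ i, dd (Y.τq m i) - (1 + yy i) * (tt (Y.τq m i) - (1 + yy i)) ∈ a) ∧
      ∀ Ψ : PP O n r →+* Tg O ⧸ a, Hm ((Ideal.Quotient.mk a).comp MvPolynomial.C)
        (fun z => Ideal.Quotient.mk a (Y.G'.vP (Y.τ' m) z)) Ψ →
        RingHom.ker Ψ ≤ Module.annihilator (PP O n r) (N m) ⊔ maximalIdeal (PP O n r) ^ k) →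
    (Y.rd ϖ).Gal (Y.rd ϖ).E (An Y.U N) ∧
    (∀ l : L.C, (∀ a, W a → tt (L.τ l) ∈ a) →
      (Y.rd ϖ).Gal ((Y.rd ϖ).E ⊔ Ideal.span {((P022S.DD K n S.T r).T l).trace}) (An Y.U N)) ∧
    ((∀ a, W a → ∀ l ∈ X, ∀ g, tt (g * L.τ l) - tt g ∈ a) →
      (Y.rd ϖ).Gal ((Y.rd ϖ).E ⊔ EU K n S.T r X) (An Y.U N))

variable {X : Finset ℕ} (hR : Rg Y ϖ X)
include hR

section fam
variable {N : ℕ → Type} [∀ m, AddCommGroup (N m)] [∀ m, Module (Tg O) (N m)]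
  [∀ m, Module (PP O n r) (N m)] (c : ∀ m, Ac (gg Y ϖ m) (ph Y m) (N m))
  (dia : ∀ m, Dia (O := O) m (Y.τq m) (N m)) (g : ∀ m, Gd (gg Y ϖ m) (N m))
include c dia g

theorem La.gal1 :
    letI : Algebra (S0 O τ L n S.T r) (S1 O τ L n S.T r) := (io O _ r).toAlgebra
    (Y.rd ϖ).Gal (Y.rd ϖ).E (An Y.U (Du N)) :=
  (hR (Du N) _ (A.gal c dia g ∅ (fun _ h => h.elim) fun _ h => h.elim)).1

theorem La.gal2 (l : L.C) (h : ∀ m (w : N m), (tt (L.τ l) : Tg O) • w = 0) :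
    letI : Algebra (S0 O τ L n S.T r) (S1 O τ L n S.T r) := (io O _ r).toAlgebra
    (Y.rd ϖ).Gal ((Y.rd ϖ).E ⊔ Ideal.span {((P022S.DD K n S.T r).T l).trace}) (An Y.U (Du N)) :=
  (hR (Du N) _ (A.gal c dia g {tt (L.τ l)} (by rintro _ rfl; exact A.fc.fs.t_mem _)
    (by rintro _ rfl; exact h))).2.1 l fun a k => k _ rfl

theorem La.gal3
    (h : ∀ l ∈ X, ∀ x m (w : N m), (tt (x * L.τ l) - tt x : Tg O) • w = 0) :
    letI : Algebra (S0 O τ L n S.T r) (S1 O τ L n S.T r) := (io O _ r).toAlgebra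
    (Y.rd ϖ).Gal ((Y.rd ϖ).E ⊔ EU K n S.T r X) (An Y.U (Du N)) :=
  (hR (Du N) _ (A.gal c dia g {t | ∃ l ∈ X, ∃ x, t = tt (x * L.τ l) - tt x} (by
    rintro _ ⟨l, hl, x, rfl⟩
    exact sub_mem (A.fc.fs.t_mem _) (A.fc.fs.t_mem _)) (by
    rintro _ ⟨l, hl, x, rfl⟩
    exact h l hl x))).2.2 fun a k l hl x => k _ ⟨l, hl, x, rfl⟩

end fam

variable {Sf : P022D.R.Dat O F} {I : Type} {Y0 : I → Type} {W0 : Type}
  [∀ i, AddCommGroup (Y0 i)] [∀ i, Module (Tg O) (Y0 i)] [AddCommGroup W0] [Module (Tg O) W0]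
  {ses : I → I → I → Prop} {ig : I} {iJ : Finset L.C → I} {b : I → ℕ} {c : ℕ}
  {φ : ℕ → Fin r → GQ} {Yb : ℕ → I → Type} {Wc : ℕ → Type}
  [∀ m i, AddCommGroup (Yb m i)] [∀ m i, Module (Tg O) (Yb m i)] [∀ m, AddCommGroup (Wc m)]
  [∀ m, Module (Tg O) (Wc m)] [∀ m i, Module (PP O n r) (Yb m i)] [∀ i, Module (PP O n r) (Y0 i)]

/-- **MD0** -/
theorem La.md (W : ∀ m, Lv2 ϖ Sf L Y0 W0 ses ig iJ b c m (Y.q m) (Y.τq m) (φ m) (Yb m) (Wc m))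
    (g : ∀ m i, Gd (gg Y ϖ m) (Yb m i))
    (sb0 : ∀ i, ∃ b, Sb2 (mT L.r) b (Y0 i)) (cY : ∀ m i, Ac (gg Y ϖ m) (ph Y m) (Yb m i))
    (c0 : ∀ m i, Ac (gg Y ϖ m) (ph Y m) (Y0 i)) {a : Fin r ⊕ Fin r → PP O n r} {d : PP O n r}
    (hu : ∀ i, Cv (Y.U : Filter ℕ) (fun m => uu lam Y.τq m i) (a i))
    (hd : Cv (Y.U : Filter ℕ) (P022G.Mod.DD lam Y.q φ c) d) :
    letI : Algebra (S0 O τ L n S.T r) (S1 O τ L n S.T r) := (io O _ r).toAlgebra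
    P022S.Pt.MD0 (Y.rd ϖ) Y.U (uu lam Y.τq) a (P022G.Mod.DD lam Y.q φ c) d
      (fun i => Du fun m => Yb m i) (fun i => CharacterModule (Finset (Fin r) → Y0 i)) ses iJ := by
  letI : Algebra (S0 O τ L n S.T r) (S1 O τ L n S.T r) := (io O _ r).toAlgebra
  refine A.la.md (Y.rd ϖ) rfl (A.fc.aP_eq Y.G' ▸ le_rfl) ?_ (fun m i => (A.ok.gn m i).1) A.ok.ine W
    sb0 cY c0 A.ok.hU hu hd
    (fun J => A.gal1 hR (fun m => cY m _) (fun m => (W m).dia _) fun m => g m _)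
    (fun J l hl t ht m => A.unr (cY m _) (g m _) ((W m).pi _) l ((W m).unr J l hl) t ht)
    fun l m b hb => A.new hb l
  have := Finset.card_pos.2 ⟨_, S.hl0⟩
  change 4 * S.T.card + 2 * r + 1 = 4 * S.T.card - 1 + (r + r + 2)
  omega

end Vale.Agent.P022S.Mp

namespace Vale.Agent.P022S

open Vale.Agent.P022S.Mp
open Vale.Agent.P022S.Mod (gd_of)
open Vale.Agent.P022G.Mod (uu ann_pi)
open Vale.Agent.P022D.Core (io)
open Vale.Agent.P022D.PA (lim)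

/-- **the package at a curve** -/
theorem pkgC (h2 : GPW) (h3 : GPO) (hC : CPK) (hG : RGAL) : PKG := by
  intro O F _ _ _ _ _ _ _ ϖ S L X as β τ ι' _ _ _ K n G hϖ hy hK hK' Sf I Y0 W0 _ _ _ _ ses ig ib
    iJ e1 hD p σ p1 p2 p3 p4 p5
  obtain ⟨r, s, V, _, _, _, _, _, _, Y, a1, rfl, a3, a4, b, c, φ, Yb, Wc, Pb, _, _, _, _, _, _,
    W, d1, -, hP, tu, e, hu, hφ⟩ := hC O F ϖ S L X as β τ ι' K n G hϖ hy hK hK' True L Sf I Y0 W0
      ses ig ib iJ e1.le (hD.hdx True) p σ p1 p2 p3 p4 p5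
  refine ⟨r, s, V, _, inferInstance, inferInstance, inferInstance, inferInstance, inferInstance,
    Y, a1, rfl, a3, a4, ?_⟩
  intro _
  haveI := P022D.As.base O (Sy n)
  letI : Algebra (S0 O τ L n S.T r) (S1 O τ L n S.T r) := (io O _ r).toAlgebra
  have H := fc_of h2 h3 O F ϖ S L X as β τ ι' K n Y.G' hϖ hy hK hK'
  obtain ⟨lam, A⟩ := ex_la H a3
  have hR : Rg Y ϖ X := fun N _ _ W h =>
    hG O F ϖ S L X as β τ ι' K n _ hϖ hy hK hK' r s V Y a1 rfl a3 N W h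
  have g := fun m i => gd_of (e1 ▸ (W m).gm i) (e1 ▸ d1 m i)
  choose iY cY using fun m i => A.mod m (g m i)
  choose i0 c0 an using fun i => A.mod0 (gd_of (e1 ▸ hD.gm0 i) (e1 ▸ hD.dm0 i))
  choose a ha using fun i => lim _ Y.U fun m => uu lam Y.τq m i
  obtain ⟨d, hd⟩ := lim _ Y.U (P022G.Mod.DD lam Y.q φ c)
  refine ⟨_, a, _, d, _, _, _, _, _, _, A.md hR W g hD.sb0 cY (fun m i => c0 i m) ha hd,
    fun E hE => A.dp hu (p5 E hE).1.1 (p5 E hE).1.2.1 (fun m i => hφ m i E hE) hd,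
    fun i => ?_, fun l hl => ?_⟩
  · rw [P022G.Pt.ann_dual, ann_pi, an]
  · have t := hy.ok.tm l (Finset.mem_union_right _ l.2)
    have q := hy.ok.hP l (Finset.mem_union_right _ l.2)
    have u : L.r (L.τ l) = 1 := hy.unr l (hy.ok.pr l (Finset.mem_union_right _ l.2)).1
      (Or.inr hl) _ q.1 q.2 _ t.tau
    have k := fun m => hP trivial m l (by have := hy.one l hl; omega) u
    have g' := fun m => gd_of (e1 ▸ (k m).1.gm) (e1 ▸ (k m).2)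
    choose iP cP using fun m => A.mod m (g' m)
    exact ⟨_, _, _, P022G.Pt.DF.fd (X := Y.rd ϖ) (A.la.tw.dm W hD.sb0 cY fun m i => c0 i m)
      (A.la.tw.dfp (fun m => (k m).1) cY cP) a3.hU le_sup_left
      (A.gal2 hR cP (fun m => (k m).1.dia) g' l fun m => (k m).1.ps)⟩

end Vale.Agent.P022S
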