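import Vale.Agent.P022G.Word

/-!
# P022S: the trace of a word is a universal polynomial in the traces of the increasing words
-/

set_option linter.all false

noncomputable section

namespace Vale.Agent.P022S.Mod

open Vale.Agent.P022.H346 MvPolynomial
open Vale.Agent.P022G.Word (wd)

variable {n : ℕ}

/-- the values of the symbols -/
def sv3 {G B : Type} [Group G] [CommRing B] (t : G → B) (d : G →* Bˣ) (γ : Fin n → G) :
    Finset (Fin n) ⊕ Fin n ⊕ Fin n → B :=
  Sum.elim (fun s => t (wd γ s)) (Sum.elim (fun i => d (γ i)) fun i => d (γ i)⁻¹)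

/-- the evaluation of the free symbols -/
def evF {G B : Type} [Group G] [CommRing B] (t : G → B) (d : G →* Bˣ) (γ : Fin n → G) :
    MvPolynomial (FreeGroup (Fin n) ⊕ FreeGroup (Fin n)) ℤ →+* B :=
  eval₂Hom (Int.castRingHom B)
    (Sum.elim (fun w => t (FreeGroup.lift γ w)) fun w => d (FreeGroup.lift γ w))

/-- the universal relations -/
def IU (n : ℕ) : Ideal (MvPolynomial (FreeGroup (Fin n) ⊕ FreeGroup (Fin n)) ℤ) where
  carrier := {f | ∀ (G B : Type) [Group G] [CommRing B] (t : G → B) (d : G →* Bˣ) (γ : Fin n → G),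
    TF t d → evF t d γ f = 0}
  zero_mem' := fun G B _ _ t d γ _ => map_zero _
  add_mem' := fun {f g} hf hg G B _ _ t d γ h => by
    rw [map_add, hf G B t d γ h, hg G B t d γ h, add_zero]
  smul_mem' := fun c f hf G B _ _ t d γ h => by
    rw [smul_eq_mul, map_mul, hf G B t d γ h, mul_zero]

theorem lift_wd {G : Type} [Group G] (γ : Fin n → G) (s : Finset (Fin n)) :
    FreeGroup.lift γ (wd FreeGroup.of s) = wd γ s := by
  rw [wd, wd, map_list_prod, List.map_map]
  exact congrArg (fun f => ((s.sort (· ≤ ·)).map f).prod)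
    (funext fun i => FreeGroup.lift_apply_of)

/-- **universal polynomials** -/
theorem uni (w : FreeGroup (Fin n)) : ∃ p q : MvPolynomial (Finset (Fin n) ⊕ Fin n ⊕ Fin n) ℤ,
    ∀ (G B : Type) [Group G] [CommRing B] (t : G → B) (d : G →* Bˣ) (γ : Fin n → G), TF t d →
      eval₂Hom (Int.castRingHom B) (sv3 t d γ) p = t (FreeGroup.lift γ w) ∧
      eval₂Hom (Int.castRingHom B) (sv3 t d γ) q = d (FreeGroup.lift γ w) := by
  let π := Ideal.Quotient.mk (IU n)
  let D : FreeGroup (Fin n) →* (_ ⧸ IU n)ˣ := MonoidHom.toHomUnits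
    { toFun := fun w => π (X (Sum.inr w))
      map_one' := Ideal.Quotient.eq.2 (show _ - 1 ∈ IU n from fun G B _ _ t d γ h => by simp [evF])
      map_mul' := fun a b => Ideal.Quotient.eq.2 (show _ - X _ * X _ ∈ IU n from
        fun G B _ _ t d γ h => by simp [evF]) }
  have T : TF (fun w => π (X (Sum.inl w))) D :=
    ⟨Ideal.Quotient.eq.2 (show _ - 2 ∈ IU n from fun G B _ _ t d γ h => by
        rw [map_sub, map_ofNat]; simp [evF, h.one]),
      fun a b => Ideal.Quotient.eq.2 fun G B _ _ t d γ h => by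
        simp [evF, h.comm (FreeGroup.lift γ a)],
      fun a b => Ideal.Quotient.eq.2 (show X _ * X _ - (X _ + X (Sum.inr b) * X _) ∈ IU n from
        fun G B _ _ t d γ h => by simp [evF, h.mul (FreeGroup.lift γ a)])⟩
  let v : Finset (Fin n) ⊕ Fin n ⊕ Fin n → MvPolynomial (FreeGroup (Fin n) ⊕ FreeGroup (Fin n)) ℤ :=
    Sum.elim (fun s => X (Sum.inl (wd FreeGroup.of s))) (Sum.elim
      (fun i => X (Sum.inr (FreeGroup.of i))) fun i => X (Sum.inr (FreeGroup.of i)⁻¹))
  let e := π.comp (eval₂Hom (Int.castRingHom _) v)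
  have hw : w ∈ Subgroup.closure (Set.range (FreeGroup.of : Fin n → _)) := by
    rw [FreeGroup.closure_range_of]; trivial
  have h2 : ∀ i, (D (FreeGroup.of i) : _ ⧸ IU n) ∈ e.range := fun i =>
    ⟨X (Sum.inr (Sum.inl i)), congrArg π (eval₂Hom_X' _ _ _)⟩
  have h3 : ∀ i, (((D (FreeGroup.of i))⁻¹ : (_ ⧸ IU n)ˣ) : _ ⧸ IU n) ∈ e.range := fun i =>
    ⟨X (Sum.inr (Sum.inr i)), by rw [← map_inv]; exact congrArg π (eval₂Hom_X' _ _ _)⟩
  obtain ⟨p, hp⟩ := P022G.Word.mem FreeGroup.of e.range T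
    (fun s => ⟨X (Sum.inl s), congrArg π (eval₂Hom_X' _ _ _)⟩) h2 h3 hw
  obtain ⟨q, hq⟩ := (P022G.Word.mem_d FreeGroup.of e.range h2 h3 hw).1
  refine ⟨p, q, fun G B _ _ t d γ h => ?_⟩
  have k : (evF t d γ).comp (eval₂Hom (Int.castRingHom _) v) =
      eval₂Hom (Int.castRingHom B) (sv3 t d γ) := by
    refine ringHom_ext (fun _ => by simp) fun s => ?_
    rcases s with s | s | s <;> simp [evF, v, sv3, lift_wd]
  have a := Ideal.Quotient.eq.1 hp G B t d γ h
  have b := Ideal.Quotient.eq.1 (show π _ = π (X (Sum.inr w)) from hq) G B t d γ h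
  rw [map_sub, sub_eq_zero] at a b
  rw [← k]
  exact ⟨a.trans (eval₂Hom_X' _ _ _), b.trans (eval₂Hom_X' _ _ _)⟩

end Vale.Agent.P022S.Mod
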